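import Mathlib
import Crest.Prelude.Def_AsymptoticConvexity

set_option autoImplicit false

namespace Crest.Agent.R125

open Finset Filter Topology

variable {X : Type*} [NormedAddCommGroup X] [NormedSpace ℝ X]

/-- closed subspace of finite codimension -/
def Cof (S : Submodule ℝ X) : Prop := IsClosed (S : Set X) ∧ FiniteDimensional ℝ (X ⧸ S)

lemma cof_ker {Y : Type*} [NormedAddCommGroup Y] [NormedSpace ℝ Y] [FiniteDimensional ℝ Y]
    (Φ : X →L[ℝ] Y) : Cof (LinearMap.ker (Φ : X →ₗ[ℝ] Y)) := by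
  refine ⟨Φ.isClosed_ker, ?_⟩
  exact (LinearMap.quotKerEquivRange (Φ : X →ₗ[ℝ] Y)).symm.finiteDimensional

lemma cof_fin {ι : Type*} [Fintype ι] (φ : ι → X →L[ℝ] ℝ) :
    ∃ S : Submodule ℝ X, Cof S ∧ ∀ y, y ∈ S ↔ ∀ i, φ i y = 0 := by
  refine ⟨_, cof_ker (ContinuousLinearMap.pi φ), fun y => ?_⟩
  simp [funext_iff]

lemma cof_finset {ι : Type*} (s : Finset ι) (φ : ι → X →L[ℝ] ℝ) :
    ∃ S : Submodule ℝ X, Cof S ∧ ∀ y, y ∈ S ↔ ∀ i ∈ s, φ i y = 0 := by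
  obtain ⟨S, h1, h2⟩ := cof_fin (fun i : s => φ i)
  exact ⟨S, h1, fun y => by rw [h2]; simp⟩

lemma Cof.repr {S : Submodule ℝ X} (hS : Cof S) :
    ∃ (m : ℕ) (φ : Fin m → X →L[ℝ] ℝ) (e : Fin m → X), ∀ x, x - ∑ j, φ j x • e j ∈ S := by
  haveI := hS.2
  haveI : IsClosed (S : Set X) := hS.1
  let b := Module.finBasis ℝ (X ⧸ S)
  choose e he using fun j => S.mkQ_surjective (b j)
  have hq : Continuous S.mkQ := continuous_quot_mk
  refine ⟨_, fun j => ⟨(b.coord j) ∘ₗ S.mkQ,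
    (b.coord j).continuous_of_finiteDimensional.comp hq⟩, e, fun x => ?_⟩
  rw [← Submodule.Quotient.mk_eq_zero, ← Submodule.mkQ_apply, map_sub, map_sum]
  simp only [map_smul, he]
  rw [sub_eq_zero]
  exact (b.sum_repr (S.mkQ x)).symm

/-- a vector on which finitely many functionals are small is close to the subspace -/
lemma Cof.close {S : Submodule ℝ X} (hS : Cof S) :
    ∃ (m : ℕ) (φ : Fin m → X →L[ℝ] ℝ), ∀ ε > 0, ∃ δ > 0, ∀ x, (∀ j, |φ j x| ≤ δ) →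
      ∃ y ∈ S, ‖x - y‖ < ε := by
  obtain ⟨m, φ, e, h⟩ := hS.repr
  refine ⟨m, φ, fun ε hε => ?_⟩
  have hC : 0 ≤ ∑ j, ‖e j‖ := sum_nonneg fun _ _ => norm_nonneg _
  refine ⟨ε / (∑ j, ‖e j‖ + 1), by positivity, fun x hx => ⟨_, h x, ?_⟩⟩
  rw [sub_sub_cancel]
  calc ‖∑ j, φ j x • e j‖ ≤ ∑ j, ‖φ j x • e j‖ := norm_sum_le _ _
    _ ≤ ∑ j, ε / (∑ j, ‖e j‖ + 1) * ‖e j‖ := sum_le_sum fun j _ => by
        rw [norm_smul, Real.norm_eq_abs]
        exact mul_le_mul_of_nonneg_right (hx j) (norm_nonneg _)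
    _ = ε * ((∑ j, ‖e j‖) / (∑ j, ‖e j‖ + 1)) := by rw [← mul_sum]; ring
    _ < ε := by
        have : (∑ j, ‖e j‖) / (∑ j, ‖e j‖ + 1) < 1 := by
          rw [div_lt_one (by positivity)]; linarith
        nlinarith

lemma weakly_null_of_sign_bound (y : ℕ → X) (C : ℝ)
    (h : ∀ (A : Finset ℕ) (σ : ℕ → ℝ), (∀ k, |σ k| ≤ 1) → ‖∑ k ∈ A, σ k • y k‖ ^ 2 ≤ C * A.card)
    (φ : X →L[ℝ] ℝ) (δ : ℝ) (hδ : 0 < δ) : ∀ᶠ k in atTop, |φ (y k)| ≤ δ := by
  rw [← Nat.cofinite_eq_atTop, eventually_cofinite]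
  by_contra hinf
  obtain ⟨N, hN⟩ := exists_nat_gt (‖φ‖ ^ 2 * C / δ ^ 2)
  obtain ⟨A, hA, hcard⟩ := Set.Infinite.exists_subset_card_eq hinf (N + 1)
  have h1 := h A (fun k => SignType.sign (φ (y k))) (fun k => by
    rcases lt_trichotomy (φ (y k)) 0 with h | h | h <;> simp [h])
  have h2 : φ (∑ k ∈ A, ((SignType.sign (φ (y k)) : ℝ)) • y k) = ∑ k ∈ A, |φ (y k)| := by
    rw [map_sum]
    refine sum_congr rfl fun k _ => ?_
    rw [map_smul, smul_eq_mul, sign_mul_self]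
  have h3 : (A.card : ℝ) * δ ≤ ∑ k ∈ A, |φ (y k)| := by
    rw [← nsmul_eq_mul, ← sum_const]
    exact sum_le_sum fun k hk => (not_le.1 (hA hk)).le
  have h4 := φ.le_opNorm (∑ k ∈ A, ((SignType.sign (φ (y k)) : ℝ)) • y k)
  rw [h2, Real.norm_eq_abs] at h4
  have h5 : (A.card : ℝ) * δ ≤ ‖φ‖ * ‖∑ k ∈ A, ((SignType.sign (φ (y k)) : ℝ)) • y k‖ :=
    h3.trans ((le_abs_self _).trans h4)
  have h6 := pow_le_pow_left₀ (by positivity) h5 2
  rw [mul_pow, mul_pow] at h6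
  have h7 := mul_le_mul_of_nonneg_left h1 (sq_nonneg ‖φ‖)
  rw [hcard] at h6 h7
  push_cast at h6 h7
  rw [div_lt_iff₀ (by positivity)] at hN
  have h8 : (0 : ℝ) < N + 1 := by positivity
  have h9 : ((N : ℝ) + 1) * δ ^ 2 ≤ ‖φ‖ ^ 2 * C := by
    have : ((N : ℝ) + 1) * (((N : ℝ) + 1) * δ ^ 2) ≤ ((N : ℝ) + 1) * (‖φ‖ ^ 2 * C) := by nlinarith
    exact le_of_mul_le_mul_left this h8
  nlinarith [sq_nonneg δ]

lemma close_of_sign_bound (y : ℕ → X) (C : ℝ)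
    (h : ∀ (A : Finset ℕ) (σ : ℕ → ℝ), (∀ k, |σ k| ≤ 1) → ‖∑ k ∈ A, σ k • y k‖ ^ 2 ≤ C * A.card)
    {S : Submodule ℝ X} (hS : Cof S) (ε : ℝ) (hε : 0 < ε) : ∃ k, ∃ s ∈ S, ‖y k - s‖ < ε := by
  obtain ⟨m, φ, hφ⟩ := hS.close
  obtain ⟨δ, hδ, h1⟩ := hφ ε hε
  have h2 : ∀ᶠ k in atTop, ∀ j, |φ j (y k)| ≤ δ :=
    eventually_all.2 fun j => weakly_null_of_sign_bound y C h (φ j) δ hδ
  obtain ⟨k, hk⟩ := h2.exists
  exact ⟨k, h1 _ hk⟩

/-- the tree criterion: no equivalent norm is asymptotically uniformly convex -/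
lemma not_auc (c : ℝ) (hc : 0 < c)
    (hT : ∀ n : ℕ, ∃ T : ℕ → Set X, (T 0).Nonempty ∧ (∀ i ≤ n, ∀ x ∈ T i, c ≤ ‖x‖ ∧ ‖x‖ ≤ 1) ∧
      ∀ i < n, ∀ x ∈ T i, ∀ S : Submodule ℝ X, Cof S → ∀ ε > 0,
        ∃ z ∈ T (i + 1), ∃ y ∈ S, ‖z - x - y‖ < ε ∧ c ≤ ‖z - x‖)
    (N : X → ℝ) (hadd : ∀ x y, N (x + y) ≤ N x + N y) (hsmul : ∀ (a : ℝ) x, N (a • x) = |a| * N x)
    (a b : ℝ) (ha : 0 < a) (hab : ∀ x, a * ‖x‖ ≤ N x ∧ N x ≤ b * ‖x‖) :
    ¬ ∀ t : ℝ, 0 < t → ∃ c : ℝ, 0 < c ∧ ∀ x : X, N x = 1 → ∃ S : Submodule ℝ X, Cof S ∧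
      ∀ y ∈ S, N y = 1 → c ≤ N (x + t • y) - 1 := by
  intro hauc
  obtain ⟨T₀, ⟨x₀, hx₀⟩, hT₀, -⟩ := hT 0
  have hb : 0 < b := by
    have h1 := (hT₀ 0 le_rfl x₀ hx₀).1
    have h2 := hab x₀
    by_contra hb
    have := mul_nonpos_of_nonpos_of_nonneg (not_lt.1 hb) (norm_nonneg x₀)
    nlinarith
  obtain ⟨δ, hδ, hauc⟩ := hauc (a * c / (2 * b)) (by positivity)
  set t := a * c / (2 * b) with ht
  have ht0 : 0 < t := by positivity
  obtain ⟨n, hn⟩ := exists_nat_gt (b / (δ * a * c / 2))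
  obtain ⟨T, hne, hT1, hT2⟩ := hT n
  have key : ∀ i ≤ n, ∃ x ∈ T i, i * (δ * a * c / 2) ≤ N x := by
    intro i
    induction i with
    | zero =>
      intro _
      obtain ⟨x, hx⟩ := hne
      refine ⟨x, hx, ?_⟩
      have := (hab x).1
      have := mul_nonneg ha.le (norm_nonneg x)
      simp only [Nat.cast_zero, zero_mul]; linarith
    | succ i ih =>
      intro hi
      obtain ⟨x, hx, hxN⟩ := ih (by omega)
      obtain ⟨hx1, hx2⟩ := hT1 i (by omega) x hx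
      have hNx : a * c ≤ N x := (mul_le_mul_of_nonneg_left hx1 ha.le).trans (hab x).1
      have hNx0 : 0 < N x := lt_of_lt_of_le (by positivity) hNx
      have hNx2 : N x ≤ b := by have := (hab x).2; nlinarith
      obtain ⟨S, hS, hS2⟩ := hauc ((N x)⁻¹ • x) (by
        rw [hsmul, abs_of_pos (inv_pos.2 hNx0), inv_mul_cancel₀ hNx0.ne'])
      obtain ⟨z, hz, y, hy, hzy, hzx⟩ := hT2 i (by omega) x hx S hS
        (min (c / 2) (δ * a * c / (2 * b))) (by positivity)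
      have hzy1 : ‖z - x - y‖ < c / 2 := hzy.trans_le (min_le_left _ _)
      have hzy2 : ‖z - x - y‖ < δ * a * c / (2 * b) := hzy.trans_le (min_le_right _ _)
      have hy1 : c / 2 ≤ ‖y‖ := by
        have := norm_add_le (z - x - y) y
        rw [sub_add_cancel] at this
        linarith
      have hNy : a * c / 2 ≤ N y := by
        have := (hab y).1
        nlinarith
      have hNy0 : 0 < N y := lt_of_lt_of_le (by positivity) hNy
      have h1 := hS2 ((N y)⁻¹ • y) (S.smul_mem _ hy) (by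
        rw [hsmul, abs_of_pos (inv_pos.2 hNy0), inv_mul_cancel₀ hNy0.ne'])
      -- θ = t * N x / N y ≤ 1
      set θ := t * N x / N y with hθ
      have hθ0 : 0 < θ := by positivity
      have hθ1 : θ ≤ 1 := by
        rw [hθ, div_le_one hNy0]
        have : t * b = a * c / 2 := by rw [ht]; field_simp
        nlinarith
      have h2 : (N x)⁻¹ • x + t • (N y)⁻¹ • y = (N x)⁻¹ • ((1 - θ) • x + θ • (x + y)) := by
        rw [smul_add θ, ← add_assoc, ← add_smul, sub_add_cancel, one_smul, smul_add, smul_smul,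
          smul_smul]
        congr 2
        rw [hθ]; field_simp
      rw [h2, hsmul, abs_of_pos (inv_pos.2 hNx0)] at h1
      have h3 := hadd ((1 - θ) • x) (θ • (x + y))
      rw [hsmul, hsmul, abs_of_nonneg (by linarith), abs_of_pos hθ0] at h3
      have h4 : (1 + δ) * N x ≤ N ((1 - θ) • x + θ • (x + y)) := by
        have : (1 + δ) ≤ (N x)⁻¹ * N ((1 - θ) • x + θ • (x + y)) := by linarith
        rw [← div_eq_inv_mul, le_div_iff₀ hNx0] at this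
        exact this
      have h5 : N x + δ * N x ≤ N (x + y) := by
        have h6 : θ * (N x + δ * N x) ≤ θ * N (x + y) := by
          have : θ * (δ * N x) ≤ δ * N x := by
            have := mul_pos hδ hNx0
            nlinarith
          nlinarith
        exact le_of_mul_le_mul_left h6 hθ0
      have h7 : N (x + y) ≤ N z + b * ‖z - x - y‖ := by
        have h8 := hadd z (-(z - x - y))
        have h9 := (hab (-(z - x - y))).2
        rw [norm_neg] at h9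
        rw [show z + -(z - x - y) = x + y by abel] at h8
        linarith
      refine ⟨z, hz, ?_⟩
      have h10 : b * ‖z - x - y‖ ≤ δ * a * c / 2 := by
        have := mul_le_mul_of_nonneg_left hzy2.le hb.le
        rwa [show b * (δ * a * c / (2 * b)) = δ * a * c / 2 by field_simp] at this
      have h11 : δ * (a * c) ≤ δ * N x := mul_le_mul_of_nonneg_left hNx hδ.le
      push_cast
      nlinarith
  obtain ⟨x, hx, hxN⟩ := key n le_rfl
  have h1 := (hT1 n le_rfl x hx).2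
  have h2 := (hab x).2
  rw [div_lt_iff₀ (by positivity)] at hn
  nlinarith

open Crest.AnalysisR in
/-- bundled form of the tree criterion -/
lemma not_isAUC (Y : Type) [NormedAddCommGroup Y] [NormedSpace ℝ Y] (hY : CompleteSpace Y)
    (c : ℝ) (hc : 0 < c)
    (hT : ∀ n : ℕ, ∃ T : ℕ → Set Y, (T 0).Nonempty ∧ (∀ i ≤ n, ∀ x ∈ T i, c ≤ ‖x‖ ∧ ‖x‖ ≤ 1) ∧
      ∀ i < n, ∀ x ∈ T i, ∀ S : Submodule ℝ Y, Cof S → ∀ ε > 0,
        ∃ z ∈ T (i + 1), ∃ y ∈ S, ‖z - x - y‖ < ε ∧ c ≤ ‖z - x‖)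
    (N : Y → ℝ) (hN : (RealBanach.mk Y inferInstance inferInstance hY).IsEquivNorm N) :
    ¬ (RealBanach.mk Y inferInstance inferInstance hY).IsAUC N := by
  obtain ⟨h1, h2, a, b, ha, hab⟩ := hN
  intro h
  refine not_auc c hc hT N h1 h2 a b ha hab fun t ht => ?_
  obtain ⟨c', hc', h'⟩ := h t ht
  refine ⟨c', hc', fun x hx => ?_⟩
  obtain ⟨F, ⟨S, rfl, hS1, hS2⟩, hF⟩ := h' x hx
  exact ⟨S, ⟨hS1, hS2⟩, hF⟩

open Crest.AnalysisR in
lemma isCof_of_cof {Y : Type} [NormedAddCommGroup Y] [NormedSpace ℝ Y] (hY : CompleteSpace Y)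
    {S : Submodule ℝ Y} (hS : Cof S) :
    (RealBanach.mk Y inferInstance inferInstance hY).IsCof (S : Set Y) :=
  ⟨S, rfl, hS.1, hS.2⟩

end Crest.Agent.R125
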