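import Mathlib
import Crest.Prelude.Def_AsymptoticConvexity
import Crest.Agent.R125.Basic

set_option autoImplicit false

namespace Crest.Agent.R125

open Crest.AnalysisR

variable {Y : Type} [NormedAddCommGroup Y] [NormedSpace ℝ Y] (hY : CompleteSpace Y)

lemma midGE {t c : ℝ}
    (h : ∀ x : Y, ‖x‖ = 1 → ∀ η : ℝ, 0 < η → ∃ S : Submodule ℝ Y, Cof S ∧
      ∀ y ∈ S, ‖y‖ = 1 → c - η ≤ (‖x + t • y‖ + ‖x - t • y‖) / 2 - 1) :
    (RealBanach.mk Y inferInstance inferInstance hY).MidpointModulusGE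
      (RealBanach.mk Y inferInstance inferInstance hY).norm t c := by
  intro x hx η hη
  obtain ⟨S, hS, h2⟩ := h x hx η hη
  exact ⟨(S : Set Y), isCof_of_cof hY hS, h2⟩

lemma maxGE {t c : ℝ}
    (h : ∀ x : Y, ‖x‖ = 1 → ∀ η : ℝ, 0 < η → ∃ S : Submodule ℝ Y, Cof S ∧
      ∀ y ∈ S, ‖y‖ = 1 → c - η ≤ max ‖x + t • y‖ ‖x - t • y‖ - 1) :
    (RealBanach.mk Y inferInstance inferInstance hY).MaxMidpointModulusGE
      (RealBanach.mk Y inferInstance inferInstance hY).norm t c := by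
  intro x hx η hη
  obtain ⟨S, hS, h2⟩ := h x hx η hη
  exact ⟨(S : Set Y), isCof_of_cof hY hS, h2⟩

lemma oneGE {t c : ℝ}
    (h : ∀ x : Y, ‖x‖ = 1 → ∀ η : ℝ, 0 < η → ∃ S : Submodule ℝ Y, Cof S ∧
      ∀ y ∈ S, ‖y‖ = 1 → c - η ≤ ‖x + t • y‖ - 1) :
    (RealBanach.mk Y inferInstance inferInstance hY).OneSidedModulusGE
      (RealBanach.mk Y inferInstance inferInstance hY).norm t c := by
  intro x hx η hη
  obtain ⟨S, hS, h2⟩ := h x hx η hη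
  exact ⟨(S : Set Y), isCof_of_cof hY hS, h2⟩

lemma midLE {t c : ℝ}
    (h : ∀ x : Y, ‖x‖ = 1 → ∀ S : Submodule ℝ Y, Cof S → ∀ η : ℝ, 0 < η →
      ∃ y ∈ S, ‖y‖ = 1 ∧ (‖x + t • y‖ + ‖x - t • y‖) / 2 - 1 ≤ c + η) :
    (RealBanach.mk Y inferInstance inferInstance hY).MidpointModulusLE
      (RealBanach.mk Y inferInstance inferInstance hY).norm t c := by
  rintro x hx F ⟨S, rfl, hS1, hS2⟩ η hη
  exact h x hx S ⟨hS1, hS2⟩ η hη

lemma oneLE {t c : ℝ}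
    (h : ∀ x : Y, ‖x‖ = 1 → ∀ S : Submodule ℝ Y, Cof S → ∀ η : ℝ, 0 < η →
      ∃ y ∈ S, ‖y‖ = 1 ∧ ‖x + t • y‖ - 1 ≤ c + η) :
    (RealBanach.mk Y inferInstance inferInstance hY).OneSidedModulusLE
      (RealBanach.mk Y inferInstance inferInstance hY).norm t c := by
  rintro x hx F ⟨S, rfl, hS1, hS2⟩ η hη
  exact h x hx S ⟨hS1, hS2⟩ η hη

end Crest.Agent.R125
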