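import Mathlib
import Crest.Prelude.Def_DaugavetL1
import Crest.Agent.R125.Basic

set_option autoImplicit false

namespace Crest.Agent.R125

open Finset Filter Topology Crest.AnalysisR.L1Subspace

variable {X : Type*} [NormedAddCommGroup X] [NormedSpace ℝ X]

lemma slice0 (hD : HasDaugavetProperty X) (ψ : X →L[ℝ] ℝ) (hψ : ψ ≠ 0) (v : X) (hv : v ≠ 0)
    (ε : ℝ) (hε : 0 < ε) : ∃ z, ‖z‖ ≤ 1 ∧ ‖ψ‖ - ε < ψ z ∧ ‖v‖ + 1 - ε < ‖v + z‖ := by
  have hψ0 : 0 < ‖ψ‖ := norm_pos_iff.2 hψ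
  have hv0 : 0 < ‖v‖ := norm_pos_iff.2 hv
  set φ : X →L[ℝ] ℝ := ‖ψ‖⁻¹ • ψ with hφ
  have hφ1 : ‖φ‖ = 1 := by
    rw [hφ, norm_smul, norm_inv, norm_norm, inv_mul_cancel₀ hψ0.ne']
  have h1 := hD φ v
  rw [ContinuousLinearMap.norm_smulRight_apply, hφ1, one_mul] at h1
  set δ := min (ε / 2) (ε * ‖v‖ / ‖ψ‖) with hδ
  have hδ0 : 0 < δ := by positivity
  have key : ∃ z, ‖z‖ ≤ 1 ∧ 0 ≤ φ z ∧ 1 + ‖v‖ - δ < ‖z + φ z • v‖ := by
    obtain ⟨z, hz1, hz2⟩ := ContinuousLinearMap.exists_lt_apply_of_lt_opNorm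
      (ContinuousLinearMap.id ℝ X + φ.smulRight v) (r := 1 + ‖v‖ - δ) (by rw [h1]; linarith)
    simp only [ContinuousLinearMap.add_apply, ContinuousLinearMap.id_apply,
      ContinuousLinearMap.smulRight_apply] at hz2
    rcases le_total 0 (φ z) with h | h
    · exact ⟨z, hz1.le, h, hz2⟩
    · refine ⟨-z, by rw [norm_neg]; exact hz1.le, by rw [map_neg]; linarith, ?_⟩
      rw [map_neg, neg_smul, ← neg_add, norm_neg]; exact hz2
  obtain ⟨z, hz1, hz2, hz3⟩ := key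
  have hφz : φ z ≤ 1 := by
    have := φ.le_opNorm z
    rw [hφ1, Real.norm_eq_abs] at this
    have := le_abs_self (φ z)
    linarith
  have h2 := norm_add_le z (φ z • v)
  rw [norm_smul, Real.norm_eq_abs, abs_of_nonneg hz2] at h2
  have h3 : (1 - φ z) * ‖v‖ < δ := by linarith
  refine ⟨z, hz1, ?_, ?_⟩
  · have h4 : ψ z = ‖ψ‖ * φ z := by
      rw [hφ, ContinuousLinearMap.smul_apply, smul_eq_mul, ← mul_assoc, mul_inv_cancel₀ hψ0.ne',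
        one_mul]
    have h5 : (1 - φ z) * ‖v‖ < ε * ‖v‖ / ‖ψ‖ := h3.trans_le (min_le_right _ _)
    rw [lt_div_iff₀ hψ0] at h5
    have h6 : (1 - φ z) * ‖ψ‖ < ε := by
      have : ((1 - φ z) * ‖ψ‖) * ‖v‖ < ε * ‖v‖ := by linarith
      exact lt_of_mul_lt_mul_right this hv0.le
    rw [h4]; linarith
  · have h4 := norm_add_le (v + z) (-((1 - φ z) • v))
    rw [norm_neg, norm_smul, Real.norm_eq_abs, abs_of_nonneg (by linarith),
      show v + z + -((1 - φ z) • v) = z + φ z • v by rw [sub_smul, one_smul]; abel] at h4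
    have h5 : δ ≤ ε / 2 := min_le_left _ _
    linarith

lemma slice [Nontrivial X] (hD : HasDaugavetProperty X) (ψ : X →L[ℝ] ℝ) (v : X)
    (ε : ℝ) (hε : 0 < ε) : ∃ z, ‖z‖ ≤ 1 ∧ ‖ψ‖ - ε < ψ z ∧ ‖v‖ + 1 - ε < ‖v + z‖ := by
  have h1 : ∀ ψ : X →L[ℝ] ℝ, ψ ≠ 0 → ∃ z, ‖z‖ ≤ 1 ∧ ‖ψ‖ - ε < ψ z ∧ ‖v‖ + 1 - ε < ‖v + z‖ := by
    intro ψ hψ
    by_cases hv : v = 0
    · obtain ⟨u, hu⟩ := exists_ne (0 : X)
      obtain ⟨z, hz1, hz2, hz3⟩ := slice0 hD ψ hψ u hu ε hε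
      refine ⟨z, hz1, hz2, ?_⟩
      have := norm_add_le u z
      rw [hv, norm_zero, zero_add, zero_add]
      linarith
    · exact slice0 hD ψ hψ v hv ε hε
  by_cases hψ : ψ = 0
  · obtain ⟨g, hg, -⟩ := exists_dual_vector' ℝ (0 : X)
    obtain ⟨z, hz1, -, hz3⟩ := h1 g (by rintro rfl; simp at hg)
    exact ⟨z, hz1, by simp [hψ, hε], hz3⟩
  · exact h1 ψ hψ

lemma weak_nbhd_aux [Nontrivial X] (hD : HasDaugavetProperty X) {m : ℕ}
    (Φ : X →L[ℝ] EuclideanSpace ℝ (Fin m)) (w : X) (hw : ‖w‖ ≤ 1) (v : X) (ε : ℝ) (hε : 0 < ε) :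
    ∃ z, ‖z‖ ≤ 1 ∧ ‖Φ z - Φ w‖ < ε ∧ ‖v‖ + 1 - ε < ‖v + z‖ := by
  set G : Set (EuclideanSpace ℝ (Fin m)) :=
    {k | ∀ v : X, ∀ ε > 0, ∃ z, ‖z‖ ≤ 1 ∧ ‖Φ z - k‖ < ε ∧ ‖v‖ + 1 - ε < ‖v + z‖} with hG
  suffices h : Φ w ∈ G from h v ε hε
  have hscale : ∀ k ∈ G, ∀ a : ℝ, 0 < a → ∀ v : X, ∀ ε > 0,
      ∃ z, ‖z‖ ≤ 1 ∧ ‖Φ z - k‖ < ε ∧ ‖v‖ + a - a * ε < ‖v + a • z‖ := by
    intro k hk a ha v ε hε
    obtain ⟨z, hz1, hz2, hz3⟩ := hk (a⁻¹ • v) ε hε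
    refine ⟨z, hz1, hz2, ?_⟩
    have h1 : v + a • z = a • (a⁻¹ • v + z) := by
      rw [smul_add, smul_smul, mul_inv_cancel₀ ha.ne', one_smul]
    rw [norm_smul, norm_inv, Real.norm_eq_abs, abs_of_pos ha] at hz3
    rw [h1, norm_smul, Real.norm_eq_abs, abs_of_pos ha]
    have h2 := mul_lt_mul_of_pos_left hz3 ha
    rwa [mul_sub, mul_add, ← mul_assoc, mul_inv_cancel₀ ha.ne', one_mul, mul_one] at h2
  have hconv : Convex ℝ G := by
    rw [convex_iff_forall_pos]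
    intro k₁ hk₁ k₂ hk₂ a b ha hb hab v ε hε
    obtain ⟨z₁, h11, h12, h13⟩ := hscale k₁ hk₁ a ha v ε hε
    obtain ⟨z₂, h21, h22, h23⟩ := hscale k₂ hk₂ b hb (v + a • z₁) ε hε
    refine ⟨a • z₁ + b • z₂, ?_, ?_, ?_⟩
    · have := norm_add_le (a • z₁) (b • z₂)
      rw [norm_smul, norm_smul, Real.norm_eq_abs, Real.norm_eq_abs, abs_of_pos ha,
        abs_of_pos hb] at this
      nlinarith
    · have h1 : Φ (a • z₁ + b • z₂) - (a • k₁ + b • k₂) = a • (Φ z₁ - k₁) + b • (Φ z₂ - k₂) := by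
        rw [map_add, map_smul, map_smul, smul_sub, smul_sub]; abel
      have := norm_add_le (a • (Φ z₁ - k₁)) (b • (Φ z₂ - k₂))
      rw [norm_smul, norm_smul, Real.norm_eq_abs, Real.norm_eq_abs, abs_of_pos ha,
        abs_of_pos hb] at this
      rw [h1]
      have h2 := mul_lt_mul_of_pos_left h12 ha
      have h3 := mul_lt_mul_of_pos_left h22 hb
      have h4 : a * ε + b * ε = ε := by rw [← add_mul, hab, one_mul]
      linarith
    · rw [← add_assoc]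
      have h4 : a * ε + b * ε = ε := by rw [← add_mul, hab, one_mul]
      linarith
  have hclosed : IsClosed G := by
    rw [← closure_subset_iff_isClosed]
    intro k hk v ε hε
    obtain ⟨k', hk', hkk⟩ := Metric.mem_closure_iff.1 hk (ε / 2) (by positivity)
    obtain ⟨z, hz1, hz2, hz3⟩ := hk' v (ε / 2) (by positivity)
    refine ⟨z, hz1, ?_, by linarith⟩
    rw [dist_comm, dist_eq_norm] at hkk
    have := norm_add_le (Φ z - k') (k' - k)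
    rw [sub_add_sub_cancel] at this
    linarith
  by_contra hw'
  obtain ⟨f, u, hf1, hf2⟩ := geometric_hahn_banach_closed_point hconv hclosed hw'
  set K : Set (EuclideanSpace ℝ (Fin m)) := closure (Φ '' Metric.closedBall 0 1) with hK
  have hKb : K ⊆ Metric.closedBall 0 ‖Φ‖ := by
    refine closure_minimal ?_ Metric.isClosed_closedBall
    rintro _ ⟨z, hz, rfl⟩
    rw [mem_closedBall_zero_iff] at hz ⊢
    have := Φ.le_opNorm z
    nlinarith [norm_nonneg Φ]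
  have hKc : IsCompact K := (isCompact_closedBall _ _).of_isClosed_subset isClosed_closure hKb
  have hwK : Φ w ∈ K := subset_closure ⟨w, mem_closedBall_zero_iff.2 hw, rfl⟩
  set R : ℝ := (‖Φ‖ ^ 2 + 1) / (f (Φ w) - u) with hR
  have hR0 : 0 < R := div_pos (by positivity) (by linarith)
  obtain ⟨e, heK, he⟩ := hKc.exists_isMaxOn ⟨_, hwK⟩
    (f := fun k => ‖k‖ ^ 2 + 2 * R * f k) (by fun_prop)
  set lam : EuclideanSpace ℝ (Fin m) →L[ℝ] ℝ := innerSL ℝ e + R • f with hlam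
  have hlam_apply : ∀ k, lam k = inner ℝ e k + R * f k := fun k => by simp [hlam]
  have hle : lam e ≤ ‖lam.comp Φ‖ := by
    have : K ⊆ {k | lam k ≤ ‖lam.comp Φ‖} := by
      refine closure_minimal ?_ (isClosed_le lam.continuous continuous_const)
      rintro _ ⟨z, hz, rfl⟩
      rw [mem_closedBall_zero_iff] at hz
      have h1 := (lam.comp Φ).le_opNorm z
      rw [Real.norm_eq_abs] at h1
      have h2 := le_abs_self ((lam.comp Φ) z)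
      have h3 : (lam.comp Φ) z = lam (Φ z) := rfl
      show lam (Φ z) ≤ _
      nlinarith [norm_nonneg (lam.comp Φ)]
    exact this heK
  have heG : e ∈ G := by
    intro v ε hε
    obtain ⟨z, hz1, hz2, hz3⟩ := slice hD (lam.comp Φ) v (min ε (ε ^ 2 / 2)) (by positivity)
    refine ⟨z, hz1, ?_, by linarith [min_le_left ε (ε ^ 2 / 2)]⟩
    have h1 : ‖Φ z‖ ^ 2 + 2 * R * f (Φ z) ≤ ‖e‖ ^ 2 + 2 * R * f e :=
      he (subset_closure ⟨z, mem_closedBall_zero_iff.2 hz1, rfl⟩)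
    have h2 : ‖Φ z - e‖ ^ 2 = ‖Φ z‖ ^ 2 - 2 * inner ℝ e (Φ z) + ‖e‖ ^ 2 := by
      rw [norm_sub_sq_real, real_inner_comm]
    have h3 : (lam.comp Φ) z = lam (Φ z) := rfl
    rw [h3, hlam_apply] at hz2
    rw [hlam_apply, real_inner_self_eq_norm_sq] at hle
    have h4 : ‖Φ z - e‖ ^ 2 < ε ^ 2 := by linarith [min_le_right ε (ε ^ 2 / 2)]
    exact lt_of_pow_lt_pow_left₀ 2 hε.le h4
  have h1 := hf1 e heG
  have h2 : ‖Φ w‖ ^ 2 + 2 * R * f (Φ w) ≤ ‖e‖ ^ 2 + 2 * R * f e := he hwK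
  have h3 : ‖e‖ ≤ ‖Φ‖ := mem_closedBall_zero_iff.1 (hKb heK)
  have h4 := pow_le_pow_left₀ (norm_nonneg _) h3 2
  have h5 : R * (f (Φ w) - u) = ‖Φ‖ ^ 2 + 1 := by
    rw [hR]; exact div_mul_cancel₀ _ (by linarith)
  have h6 := mul_lt_mul_of_pos_left h1 hR0
  nlinarith [sq_nonneg ‖Φ w‖, sq_nonneg ‖Φ‖]

lemma weak_nbhd [Nontrivial X] (hD : HasDaugavetProperty X) {S : Submodule ℝ X} (hS : Cof S)
    (w : X) (hw : ‖w‖ ≤ 1) (v : X) (ε : ℝ) (hε : 0 < ε) :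
    ∃ z, ‖z‖ ≤ 1 ∧ (∃ y ∈ S, ‖z - w - y‖ < ε) ∧ ‖v‖ + 1 - ε < ‖v + z‖ := by
  obtain ⟨m, φ, hφ⟩ := hS.close
  obtain ⟨δ, hδ, h1⟩ := hφ ε hε
  set Φ : X →L[ℝ] EuclideanSpace ℝ (Fin m) :=
    (EuclideanSpace.equiv (Fin m) ℝ).symm.toContinuousLinearMap.comp (ContinuousLinearMap.pi φ)
    with hΦ
  obtain ⟨z, hz1, hz2, hz3⟩ := weak_nbhd_aux hD Φ w hw v (min δ ε) (by positivity)
  refine ⟨z, hz1, h1 _ fun j => ?_, by linarith [min_le_right δ ε]⟩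
  have h2 := PiLp.norm_apply_le (Φ z - Φ w) j
  have h3 : (Φ z - Φ w) j = φ j (z - w) := by simp [hΦ]
  rw [h3, Real.norm_eq_abs] at h2
  linarith [min_le_left δ ε]

lemma daugavet_dir [Nontrivial X] (hD : HasDaugavetProperty X) {S : Submodule ℝ X} (hS : Cof S)
    (x : X) (hx : ‖x‖ = 1) (η : ℝ) (hη : 0 < η) :
    ∃ y ∈ S, ‖y‖ = 1 ∧ ‖x + (2 : ℝ) • y‖ ≤ 1 + η := by
  obtain ⟨z, hz1, ⟨y, hy, hzy⟩, hz3⟩ := weak_nbhd hD hS x hx.le (-x) (min (η / 3) (1 / 2))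
    (by positivity)
  have e1 := min_le_left (η / 3) (1 / 2)
  have e2 := min_le_right (η / 3) (1 / 2)
  rw [norm_neg, hx, neg_add_eq_sub] at hz3
  have h1 : ‖z - x‖ ≤ 2 := by have := norm_sub_le z x; linarith
  have h2 := norm_add_le (z - x - y) y
  rw [sub_add_cancel] at h2
  have h3 := norm_sub_le (z - x) (z - x - y)
  rw [sub_sub_cancel] at h3
  have hy0 : 0 < ‖y‖ := by linarith
  refine ⟨‖y‖⁻¹ • y, S.smul_mem _ hy, by
    rw [norm_smul, norm_inv, norm_norm, inv_mul_cancel₀ hy0.ne'], ?_⟩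
  have h4 : x + (2 : ℝ) • ‖y‖⁻¹ • y = z - (z - x - y) + (2 * ‖y‖⁻¹ - 1) • y := by
    rw [smul_smul, sub_smul, one_smul]; abel
  have h5 : ‖(2 * ‖y‖⁻¹ - 1) • y‖ = |2 - ‖y‖| := by
    rw [norm_smul, Real.norm_eq_abs, ← abs_of_pos hy0, ← abs_mul, abs_of_pos hy0]
    congr 1; field_simp
  have h6 : |2 - ‖y‖| ≤ 2 * η / 3 := by
    rw [abs_le]; constructor <;> linarith
  rw [h4]
  have h7 := norm_add_le (z - (z - x - y)) ((2 * ‖y‖⁻¹ - 1) • y)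
  have h8 := norm_sub_le z (z - x - y)
  linarith

lemma dir_bound {x y : X} (hx : ‖x‖ = 1) (hy : ‖y‖ = 1) {η : ℝ} (hη : 0 < η)
    (h : ‖x + (2 : ℝ) • y‖ ≤ 1 + η) {t : ℝ} (ht : 0 < t) :
    ‖x + t • y‖ - 1 ≤ max 0 (t - 2) + η ∧
      (‖x + t • y‖ + ‖x - t • y‖) / 2 - 1 ≤ max (t / 2) (t - 1) + η := by
  have h1 := norm_sub_le x (t • y)
  rw [norm_smul, Real.norm_eq_abs, abs_of_pos ht, hx, hy] at h1
  rcases le_total t 2 with h2 | h2
  · have h3 : x + t • y = (1 - t / 2) • x + (t / 2) • (x + (2 : ℝ) • y) := by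
      rw [smul_add, smul_smul, ← add_assoc, ← add_smul]; simp
    have h4 := norm_add_le ((1 - t / 2) • x) ((t / 2) • (x + (2 : ℝ) • y))
    rw [← h3, norm_smul, norm_smul, Real.norm_eq_abs, Real.norm_eq_abs,
      abs_of_nonneg (by linarith), abs_of_nonneg (by linarith), hx] at h4
    have h5 : ‖x + t • y‖ ≤ 1 + η := by nlinarith
    constructor
    · linarith [le_max_left 0 (t - 2)]
    · linarith [le_max_left (t / 2) (t - 1)]
  · have h3 : x + t • y = (x + (2 : ℝ) • y) + (t - 2) • y := by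
      rw [sub_smul]; abel
    have h4 := norm_add_le (x + (2 : ℝ) • y) ((t - 2) • y)
    rw [← h3, norm_smul, Real.norm_eq_abs, abs_of_nonneg (by linarith), hy] at h4
    constructor
    · linarith [le_max_right 0 (t - 2)]
    · linarith [le_max_right (t / 2) (t - 1)]

lemma daugavet_tree [Nontrivial X] (hD : HasDaugavetProperty X) (n : ℕ) :
    ∃ T : ℕ → Set X, (T 0).Nonempty ∧ (∀ i ≤ n, ∀ x ∈ T i, 1 / 2 ≤ ‖x‖ ∧ ‖x‖ ≤ 1) ∧
      ∀ i < n, ∀ x ∈ T i, ∀ S : Submodule ℝ X, Cof S → ∀ ε > 0,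
        ∃ z ∈ T (i + 1), ∃ y ∈ S, ‖z - x - y‖ < ε ∧ 1 / 2 ≤ ‖z - x‖ := by
  refine ⟨fun _ => {x | 1 / 2 ≤ ‖x‖ ∧ ‖x‖ ≤ 1}, ?_, fun _ _ x hx => hx, ?_⟩
  · obtain ⟨x, hx⟩ := exists_norm_eq X (c := 1) zero_le_one
    exact ⟨x, by rw [hx]; norm_num, hx.le⟩
  · intro i _ x hx S hS ε hε
    obtain ⟨z, hz1, ⟨y, hy, hzy⟩, hz3⟩ := weak_nbhd hD hS x hx.2 (-x) (min ε (1 / 2))
      (by positivity)
    have e1 := min_le_left ε (1 / 2)
    have e2 := min_le_right ε (1 / 2)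
    rw [norm_neg, neg_add_eq_sub] at hz3
    have h1 := norm_sub_le z x
    exact ⟨z, ⟨by linarith, hz1⟩, y, hy, by linarith, by linarith [norm_nonneg x]⟩

/-- the one-sided trivial lower bound through a norming functional -/
lemma exists_norming (x : X) : ∃ φ : X →L[ℝ] ℝ, ∀ y, φ y = 0 → ‖x‖ ≤ ‖x + y‖ := by
  obtain ⟨g, hg1, hg2⟩ := exists_dual_vector'' ℝ x
  refine ⟨g, fun y hy => ?_⟩
  have h1 := g.le_opNorm (x + y)
  rw [map_add, hy, add_zero, hg2] at h1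
  simp only [RCLike.ofReal_real_eq_id, id_eq, norm_norm] at h1
  nlinarith [norm_nonneg (x + y)]

end Crest.Agent.R125
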