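import Mathlib
import Crest.Prelude.Def_TreePotentials

set_option autoImplicit false

namespace Crest.Agent.R125

open Finset Crest.AnalysisR.TreePotential

/-- indicator of one vertex -/
def delta (s : List ℕ) : List ℕ → ℝ := fun u => if u = s then 1 else 0

lemma pot_delta (s : List ℕ) : ∀ u, pathPotential (delta s) u = if s <:+ u then 1 else 0
  | [] => by simp [pathPotential, delta, eq_comm]
  | a :: v => by
    rw [pathPotential, pot_delta s v]
    by_cases h : a :: v = s
    · subst h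
      have : ¬ (a :: v) <:+ v := fun h => by
        have := h.length_le
        simp at this
      simp [delta, this]
    · have : s <:+ a :: v ↔ s <:+ v := by
        rw [List.suffix_cons_iff]
        exact ⟨fun h' => h'.resolve_left (Ne.symm h), Or.inr⟩
      simp [delta, h, this]

lemma pot_delta_le (s u : List ℕ) : |pathPotential (delta s) u| ≤ 1 := by
  rw [pot_delta]; split_ifs <;> simp

lemma pot_neg (f : List ℕ → ℝ) : ∀ u, pathPotential (fun s => -f s) u = -pathPotential f u
  | [] => rfl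
  | a :: v => by rw [pathPotential, pathPotential, pot_neg f v]; ring

lemma pot_zero : ∀ u, pathPotential (fun _ => 0) u = 0
  | [] => rfl
  | a :: v => by rw [pathPotential, pot_zero v]; ring

lemma pot_bound (f : List ℕ → ℝ) (c : ℝ) (h : ∀ u, |f u| ≤ c) :
    ∀ u, |pathPotential f u| ≤ (u.length + 1) * c
  | [] => by simpa [pathPotential] using h []
  | a :: v => by
    rw [pathPotential]
    have h1 := pot_bound f c h v
    have h2 := h (a :: v)
    have h3 := abs_add_le (pathPotential f v) (f (a :: v))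
    simp only [List.length_cons]
    push_cast
    linarith

/-- increments of a potential -/
def incr (Q : List ℕ → ℝ) : List ℕ → ℝ
  | [] => Q []
  | a :: v => Q (a :: v) - Q v

lemma pot_incr (Q : List ℕ → ℝ) : ∀ u, pathPotential (incr Q) u = Q u
  | [] => rfl
  | a :: v => by rw [pathPotential, pot_incr Q v, incr]; ring

/-- the last vertex of the root path lying in `T` -/
def top (T : Finset (List ℕ)) : List ℕ → List ℕ
  | [] => []
  | a :: v => if a :: v ∈ T then a :: v else top T v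

lemma top_of_mem {T : Finset (List ℕ)} : ∀ s ∈ T, top T s = s
  | [], _ => rfl
  | a :: v, h => by rw [top, if_pos h]

lemma mix (f g : List ℕ → ℝ) (hf : ∀ s, |pathPotential f s| ≤ 1)
    (hg : ∀ s, |pathPotential g s| ≤ 1) (T : Finset (List ℕ)) (hT0 : [] ∈ T)
    (hT : ∀ a v, a :: v ∈ T → v ∈ T) (a b : ℝ) (ha0 : 0 ≤ a) (ha1 : a ≤ 1) (hb0 : 0 ≤ b)
    (hb1 : b ≤ 1 / 2) :
    ∃ F₁ F₂ : List ℕ → ℝ, (∀ s, |pathPotential F₁ s| ≤ 1) ∧ (∀ s, |pathPotential F₂ s| ≤ 1) ∧
      (∀ s ∈ T, F₁ s = a * f s ∧ F₂ s = a * f s) ∧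
      ∀ s, s ∉ T → |F₁ s| ≤ b * |g s| ∧ |F₂ s| ≤ b * |g s| ∧ F₁ s - F₂ s = b * g s := by
  set p : List ℕ → ℝ := fun s => pathPotential g s - pathPotential g (top T s) with hp
  set Q₁ : List ℕ → ℝ := fun s => a * pathPotential f (top T s) +
    b * (if 0 ≤ pathPotential f (top T s) then -max (-p s) 0 else max (p s) 0) with hQ₁
  set Q₂ : List ℕ → ℝ := fun s => a * pathPotential f (top T s) +
    b * (if 0 ≤ pathPotential f (top T s) then -max (p s) 0 else max (-p s) 0) with hQ₂
  have hpb : ∀ s, |p s| ≤ 2 := fun s => by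
    have h1 := hg s
    have h2 := hg (top T s)
    rw [abs_le] at h1 h2 ⊢
    simp only [hp]
    constructor <;> linarith [h1.1, h1.2, h2.1, h2.2]
  have hQ : ∀ (u r r' : ℝ), |u| ≤ 1 → |r| ≤ 2 → |r'| ≤ 2 →
      |a * u + b * (if 0 ≤ u then -max r 0 else max r' 0)| ≤ 1 := by
    intro u r r' hu hr hr'
    rw [abs_le] at hu hr hr' ⊢
    have h1 : 0 ≤ max r 0 := le_max_right _ _
    have h2 : max r 0 ≤ 2 := max_le hr.2 (by norm_num)
    have h3 : 0 ≤ max r' 0 := le_max_right _ _
    have h4 : max r' 0 ≤ 2 := max_le hr'.2 (by norm_num)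
    split_ifs with h
    · constructor <;> nlinarith [mul_nonneg ha0 h, mul_nonneg hb0 h1]
    · push Not at h
      constructor <;> nlinarith [mul_nonneg hb0 h3, mul_nonneg ha0 (neg_nonneg.2 h.le)]
  have hQT : ∀ s ∈ T, Q₁ s = a * pathPotential f s ∧ Q₂ s = a * pathPotential f s := by
    intro s hs
    simp only [hQ₁, hQ₂, hp, top_of_mem s hs, sub_self, neg_zero, max_self, ite_self, mul_zero,
      add_zero, and_self]
  refine ⟨incr Q₁, incr Q₂, fun s => ?_, fun s => ?_, fun s hs => ?_, fun s hs => ?_⟩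
  · rw [pot_incr]
    exact hQ _ _ _ (hf _) (by rw [abs_neg]; exact hpb s) (hpb s)
  · rw [pot_incr]
    exact hQ _ _ _ (hf _) (hpb s) (by rw [abs_neg]; exact hpb s)
  · cases s with
    | nil => exact hQT [] hT0
    | cons c v =>
      have h1 := hQT _ hs
      have h2 := hQT _ (hT c v hs)
      simp only [incr, h1.1, h1.2, h2.1, h2.2, pathPotential]
      constructor <;> ring
  · cases s with
    | nil => exact absurd hT0 hs
    | cons c v =>
      have h1 : top T (c :: v) = top T v := by rw [top, if_neg hs]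
      have h2 : p (c :: v) = p v + g (c :: v) := by
        simp only [hp, h1, pathPotential]; ring
      have m1 : |max (p v + g (c :: v)) 0 - max (p v) 0| ≤ |g (c :: v)| := by
        simpa using abs_max_sub_max_le_abs (p v + g (c :: v)) (p v) 0
      have m2 : |max (-(p v + g (c :: v))) 0 - max (-p v) 0| ≤ |g (c :: v)| := by
        have := abs_max_sub_max_le_abs (-(p v + g (c :: v))) (-p v) 0
        rwa [show -(p v + g (c :: v)) - -p v = -g (c :: v) by ring, abs_neg] at this
      have m3 : ∀ r : ℝ, max r 0 - max (-r) 0 = r := fun r => by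
        rcases le_total r 0 with h | h
        · rw [max_eq_right h, max_eq_left (by linarith)]; ring
        · rw [max_eq_left h, max_eq_right (by linarith)]; ring
      have m4 := m3 (p v + g (c :: v))
      have m5 := m3 (p v)
      simp only [incr, hQ₁, hQ₂, h1, h2]
      split_ifs with h
      · refine ⟨?_, ?_, by linear_combination b * m4 - b * m5⟩
        · rw [show ∀ x y z : ℝ, x + b * -y - (x + b * -z) = -(b * (y - z)) by intros; ring,
            abs_neg, abs_mul, abs_of_nonneg hb0]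
          exact mul_le_mul_of_nonneg_left m2 hb0
        · rw [show ∀ x y z : ℝ, x + b * -y - (x + b * -z) = -(b * (y - z)) by intros; ring,
            abs_neg, abs_mul, abs_of_nonneg hb0]
          exact mul_le_mul_of_nonneg_left m1 hb0
      · refine ⟨?_, ?_, by linear_combination b * m4 - b * m5⟩
        · rw [show ∀ x y z : ℝ, x + b * y - (x + b * z) = b * (y - z) by intros; ring,
            abs_mul, abs_of_nonneg hb0]
          exact mul_le_mul_of_nonneg_left m1 hb0
        · rw [show ∀ x y z : ℝ, x + b * y - (x + b * z) = b * (y - z) by intros; ring,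
            abs_mul, abs_of_nonneg hb0]
          exact mul_le_mul_of_nonneg_left m2 hb0

/-- every finite set of vertices lies in a finite ancestor-closed set -/
lemma exists_closed (A : Finset (List ℕ)) :
    ∃ T : Finset (List ℕ), A ⊆ T ∧ [] ∈ T ∧ ∀ a v, a :: v ∈ T → v ∈ T := by
  refine ⟨insert [] (A.biUnion fun u => u.tails.toFinset), fun u hu => ?_, mem_insert_self _ _,
    fun a v h => ?_⟩
  · exact mem_insert_of_mem (mem_biUnion.2 ⟨u, hu, by simp⟩)
  · rcases mem_insert.1 h with h | h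
    · simp at h
    · obtain ⟨u, hu, h⟩ := mem_biUnion.1 h
      refine mem_insert_of_mem (mem_biUnion.2 ⟨u, hu, ?_⟩)
      rw [List.mem_toFinset, List.mem_tails] at h ⊢
      exact (List.suffix_cons a v).trans h

/-- a class of tests with the closure properties used below -/
structure GoodK (K : (List ℕ → ℝ) → Prop) : Prop where
  pot : ∀ f, K f → ∀ s, |pathPotential f s| ≤ 1
  dom : ∀ f g F, K f → K g → ∀ a b : ℝ, a ^ 2 + b ^ 2 ≤ 1 → (∀ s, |pathPotential F s| ≤ 1) →
    (∀ s, F s ^ 2 ≤ a ^ 2 * f s ^ 2 + b ^ 2 * g s ^ 2) → K F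
  del : ∀ s, K (delta s) ∨ ∀ f, K f → f s = 0
  zero : K fun _ => 0
  sib : ∀ f, K f → ∀ (r : List ℕ) (A : Finset ℕ), ∑ n ∈ A, f (n :: r) ^ 2 ≤ 1

lemma GoodK.neg {K : (List ℕ → ℝ) → Prop} (hK : GoodK K) {f : List ℕ → ℝ} (hf : K f) :
    K fun s => -f s :=
  hK.dom f f _ hf hf 1 0 (by norm_num) (fun s => by rw [pot_neg, abs_neg]; exact hK.pot f hf s)
    (fun s => by simp)

lemma GoodK.mix {K : (List ℕ → ℝ) → Prop} (hK : GoodK K) {f g : List ℕ → ℝ} (hf : K f) (hg : K g)
    (T : Finset (List ℕ)) (hT0 : [] ∈ T) (hT : ∀ a v, a :: v ∈ T → v ∈ T) (a b : ℝ)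
    (ha0 : 0 ≤ a) (hb0 : 0 ≤ b) (hb1 : b ≤ 1 / 2) (hab : a ^ 2 + b ^ 2 ≤ 1) :
    ∃ F₁ F₂ : List ℕ → ℝ, K F₁ ∧ K F₂ ∧ (∀ s ∈ T, F₁ s = a * f s ∧ F₂ s = a * f s) ∧
      ∀ s, s ∉ T → F₁ s - F₂ s = b * g s := by
  have ha1 : a ≤ 1 := by nlinarith
  obtain ⟨F₁, F₂, h1, h2, h3, h4⟩ :=
    R125.mix f g (hK.pot f hf) (hK.pot g hg) T hT0 hT a b ha0 ha1 hb0 hb1
  have key : ∀ F : List ℕ → ℝ, (∀ s ∈ T, F s = a * f s) → (∀ s, s ∉ T → |F s| ≤ b * |g s|) →
      ∀ s, F s ^ 2 ≤ a ^ 2 * f s ^ 2 + b ^ 2 * g s ^ 2 := by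
    intro F h5 h6 s
    by_cases hs : s ∈ T
    · rw [h5 s hs]; nlinarith [mul_nonneg (sq_nonneg b) (sq_nonneg (g s))]
    · have h7 := pow_le_pow_left₀ (abs_nonneg _) (h6 s hs) 2
      rw [mul_pow, sq_abs, sq_abs] at h7
      nlinarith [mul_nonneg (sq_nonneg a) (sq_nonneg (f s))]
  exact ⟨F₁, F₂, hK.dom f g F₁ hf hg a b hab h1 (key _ (fun s hs => (h3 s hs).1)
    fun s hs => (h4 s hs).1), hK.dom f g F₂ hf hg a b hab h2 (key _ (fun s hs => (h3 s hs).2)
    fun s hs => (h4 s hs).2.1), h3, fun s hs => (h4 s hs).2.2⟩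

lemma sum_dom {ι : Type*} (A : Finset ι) (f g F : ι → ℝ) (a b : ℝ) (hab : a ^ 2 + b ^ 2 ≤ 1)
    (h : ∀ s, F s ^ 2 ≤ a ^ 2 * f s ^ 2 + b ^ 2 * g s ^ 2) (hf : ∑ s ∈ A, f s ^ 2 ≤ 1)
    (hg : ∑ s ∈ A, g s ^ 2 ≤ 1) : ∑ s ∈ A, F s ^ 2 ≤ 1 := by
  have h1 := sum_le_sum fun s (_ : s ∈ A) => h s
  rw [sum_add_distrib, ← mul_sum, ← mul_sum] at h1
  nlinarith [mul_le_mul_of_nonneg_left hf (sq_nonneg a), mul_le_mul_of_nonneg_left hg (sq_nonneg b)]

lemma sum_delta_le (s : List ℕ) (A : Finset (List ℕ)) : ∑ u ∈ A, delta s u ^ 2 ≤ 1 := by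
  simp only [delta, ite_pow, one_pow, ne_eq, OfNat.ofNat_ne_zero, not_false_eq_true, zero_pow,
    sum_ite_eq']
  split_ifs <;> norm_num

lemma sum_children (f : List ℕ → ℝ) (r : List ℕ) (A : Finset ℕ) :
    ∑ n ∈ A, f (n :: r) = ∑ u ∈ A.image (fun n => n :: r), f u := by
  rw [sum_image fun a _ b _ h => by simpa using h]

lemma eq_zero_of_dom {x y z a b : ℝ} (h : x ^ 2 ≤ a ^ 2 * y ^ 2 + b ^ 2 * z ^ 2) (hy : y = 0)
    (hz : z = 0) : x = 0 := by
  rw [hy, hz] at h
  nlinarith [sq_nonneg x]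

lemma isTest_delta (m : PotentialModel) (s : List ℕ) (hs : s ≠ []) : IsTest m (delta s) := by
  refine ⟨pot_delta_le s, ?_⟩
  have h1 : ∀ (r : List ℕ) (A : Finset ℕ), ∑ n ∈ A, delta s (n :: r) ^ 2 ≤ 1 := fun r A => by
    rw [sum_children (fun u => delta s u ^ 2)]; exact sum_delta_le _ _
  cases m with
  | rootlessSibling => exact ⟨by simp [delta, hs.symm], h1⟩
  | rootedSibling => exact h1
  | antichain =>
    refine ⟨(Set.finite_singleton s).subset fun u hu => ?_, fun A _ => sum_delta_le _ _⟩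
    by_contra h
    exact hu (if_neg h)
  | global => exact fun A => sum_delta_le _ _

lemma goodK_model (m : PotentialModel) : GoodK (IsTest m) where
  pot f hf := hf.1
  dom f g F hf hg a b hab h1 h2 := by
    refine ⟨h1, ?_⟩
    cases m with
    | rootlessSibling =>
      exact ⟨eq_zero_of_dom (h2 []) hf.2.1 hg.2.1, fun r A =>
        sum_dom A _ _ _ a b hab (fun n => h2 (n :: r)) (hf.2.2 r A) (hg.2.2 r A)⟩
    | rootedSibling =>
      exact fun r A => sum_dom A _ _ _ a b hab (fun n => h2 (n :: r)) (hf.2 r A) (hg.2 r A)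
    | antichain =>
      refine ⟨(hf.2.1.union hg.2.1).subset fun u hu => ?_, fun A hA =>
        sum_dom A _ _ _ a b hab h2 (hf.2.2 A hA) (hg.2.2 A hA)⟩
      by_contra h
      simp only [Set.mem_union, Function.mem_support, not_or, not_not] at h
      exact hu (eq_zero_of_dom (h2 u) h.1 h.2)
    | global => exact fun A => sum_dom A _ _ _ a b hab h2 (hf.2 A) (hg.2 A)
  del s := by
    by_cases hs : s = []
    · subst hs
      have h1 : ∀ (r : List ℕ) (A : Finset ℕ), ∑ n ∈ A, delta [] (n :: r) ^ 2 ≤ 1 := fun r A => by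
        simp [delta]
      cases m with
      | rootlessSibling => exact Or.inr fun f hf => hf.2.1
      | rootedSibling => exact Or.inl ⟨pot_delta_le _, h1⟩
      | antichain =>
        refine Or.inl ⟨pot_delta_le _, (Set.finite_singleton []).subset fun u hu => ?_,
          fun A _ => sum_delta_le _ _⟩
        by_contra h
        exact hu (if_neg h)
      | global => exact Or.inl ⟨pot_delta_le _, fun A => sum_delta_le _ _⟩
    · exact Or.inl (isTest_delta m s hs)
  zero := by
    refine ⟨fun s => by simp [pot_zero], ?_⟩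
    cases m <;> simp [ExtraCondition]
  sib f hf r A := by
    cases m with
    | rootlessSibling => exact hf.2.2 r A
    | rootedSibling => exact hf.2 r A
    | antichain =>
      rw [sum_children (fun u => f u ^ 2)]
      refine hf.2.2 _ ?_
      intro u hu v hv huv h
      obtain ⟨a, -, rfl⟩ := mem_image.1 hu
      obtain ⟨b, -, rfl⟩ := mem_image.1 hv
      exact huv (h.eq_of_length (by simp))
    | global =>
      rw [sum_children (fun u => f u ^ 2)]
      exact hf.2 _

/-- tests of the global model supported on the vertices of height at most `n` -/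
def Kn (n : ℕ) (f : List ℕ → ℝ) : Prop :=
  IsTest PotentialModel.global f ∧ ∀ u, n < u.length → f u = 0

lemma kn_delta (n : ℕ) (s : List ℕ) (hs : s.length ≤ n) : Kn n (delta s) :=
  ⟨⟨pot_delta_le _, fun A => sum_delta_le _ _⟩, fun u hu => by
    simp only [delta]; rw [if_neg]; rintro rfl; omega⟩

lemma goodK_kn (n : ℕ) : GoodK (Kn n) where
  pot f hf := hf.1.1
  dom f g F hf hg a b hab h1 h2 :=
    ⟨(goodK_model _).dom f g F hf.1 hg.1 a b hab h1 h2,
      fun u hu => eq_zero_of_dom (h2 u) (hf.2 u hu) (hg.2 u hu)⟩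
  del s := by
    by_cases hs : s.length ≤ n
    · exact Or.inl (kn_delta n s hs)
    · exact Or.inr fun f hf => hf.2 s (by omega)
  zero := ⟨(goodK_model _).zero, fun _ _ => rfl⟩
  sib f hf := (goodK_model _).sib f hf.1

end Crest.Agent.R125
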