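import Mathlib
import Crest.Prelude.Def_TreeProducts
import Crest.Agent.R125.Basic

set_option autoImplicit false

namespace Crest.Agent.R125

open Finset Filter Topology MeasureTheory ProbabilityTheory Crest.AnalysisR.TreeProduct

variable {Ω : Type} [MeasurableSpace Ω] {μ : Measure Ω}

lemma prod_int {ι : Type*} (V : ι → Ω → ℝ) (hV : iIndepFun V μ) (hm : ∀ i, Measurable (V i))
    (s : Finset ι) (hi : ∀ i ∈ s, Integrable (V i) μ) :
    Integrable (fun ω => ∏ i ∈ s, V i ω) μ ∧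
      ∫ ω, ∏ i ∈ s, V i ω ∂μ = ∏ i ∈ s, ∫ ω, V i ω ∂μ := by
  have := hV.isProbabilityMeasure
  induction s using Finset.cons_induction with
  | empty => simp
  | cons j s hj ih =>
    obtain ⟨h1, h2⟩ := ih fun i hi' => hi i (mem_cons_of_mem hi')
    have h3 : IndepFun (V j) (fun ω => ∏ i ∈ s, V i ω) μ := by
      have := (hV.indepFun_finsetProd_of_notMem hm hj).symm
      convert this using 1
      ext ω; simp
    have h4 := hi j (mem_cons_self _ _)
    simp only [prod_cons]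
    exact ⟨h3.integrable_mul h4 h1, by
      rw [h3.integral_fun_mul_eq_mul_integral h4.aestronglyMeasurable h1.aestronglyMeasurable, h2]⟩

lemma real_prod {ν : Measure ℝ} {W : List ℕ → Ω → ℝ} (hW : IsRealization ν μ W)
    (s : Finset (List ℕ)) (hs : [] ∉ s) (g : List ℕ → ℝ → ℝ) (hg : ∀ u, Measurable (g u))
    (hgi : ∀ u ∈ s, Integrable (g u) ν) :
    Integrable (fun ω => ∏ u ∈ s, g u (W u ω)) μ ∧
      ∫ ω, ∏ u ∈ s, g u (W u ω) ∂μ = ∏ u ∈ s, ∫ x, g u x ∂ν := by
  obtain ⟨h1, h2, h3⟩ := hW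
  have hne : ∀ u ∈ s, u ≠ [] := fun u hu h => hs (h ▸ hu)
  have key := prod_int (fun u => g u ∘ W u) (h2.comp g hg) (fun u => (hg u).comp (h1 u)) s
    (fun u hu => by
      have := hgi u hu
      rw [← h3 u (hne u hu)] at this
      exact (integrable_map_measure (hg u).aestronglyMeasurable (h1 u).aemeasurable).1 this)
  refine ⟨key.1, key.2.trans (prod_congr rfl fun u hu => ?_)⟩
  rw [← h3 u (hne u hu), integral_map (h1 u).aemeasurable (hg u).aestronglyMeasurable]
  rfl

/-- the non-root vertices on the root path -/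
def path : List ℕ → Finset (List ℕ)
  | [] => ∅
  | a :: v => insert (a :: v) (path v)

lemma path_length : ∀ (v u : List ℕ), u ∈ path v → u ≠ [] ∧ u.length ≤ v.length
  | [], u, h => by simp [path] at h
  | a :: v, u, h => by
    rcases mem_insert.1 h with rfl | h
    · simp
    · have := path_length v u h
      exact ⟨this.1, this.2.trans (by simp)⟩

lemma cons_notMem_path (a : ℕ) (v : List ℕ) : a :: v ∉ path v := fun h => by
  have := (path_length _ _ h).2
  simp at this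

lemma nil_notMem_path (v : List ℕ) : [] ∉ path v := fun h => (path_length _ _ h).1 rfl

omit [MeasurableSpace Ω] in
lemma pathProduct_eq (W : List ℕ → Ω → ℝ) : ∀ (v : List ℕ) (ω : Ω),
    pathProduct W v ω = ∏ u ∈ path v, W u ω
  | [], ω => by simp [pathProduct, path]
  | a :: v, ω => by
    rw [path, prod_insert (cons_notMem_path a v), ← pathProduct_eq W v, mul_comm]
    rfl

section
variable {ν : Measure ℝ} {W : List ℕ → Ω → ℝ}

lemma P1 (hW : IsRealization ν μ W) (v : List ℕ) {g : ℝ → ℝ} (hg : Measurable g)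
    (hgi : Integrable g ν) : Integrable (fun ω => ∏ u ∈ path v, g (W u ω)) μ ∧
      ∫ ω, ∏ u ∈ path v, g (W u ω) ∂μ = ∏ _u ∈ path v, ∫ x, g x ∂ν :=
  real_prod hW (path v) (nil_notMem_path v) (fun _ => g) (fun _ => hg) (fun _ _ => hgi)

lemma P2 (hW : IsRealization ν μ W) (v : List ℕ) (B : Finset ℕ) {g h : ℝ → ℝ} (hg : Measurable g)
    (hgi : Integrable g ν) (hh : Measurable h) (hhi : Integrable h ν) :
    Integrable (fun ω => (∏ u ∈ path v, g (W u ω)) * ∏ a ∈ B, h (W (a :: v) ω)) μ ∧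
      ∫ ω, (∏ u ∈ path v, g (W u ω)) * ∏ a ∈ B, h (W (a :: v) ω) ∂μ =
        (∏ _u ∈ path v, ∫ x, g x ∂ν) * ∏ _a ∈ B, ∫ x, h x ∂ν := by
  have hdis : Disjoint (path v) (B.image fun a => a :: v) := by
    rw [disjoint_right]
    intro u hu
    obtain ⟨a, -, rfl⟩ := mem_image.1 hu
    exact cons_notMem_path a v
  have hinj : Set.InjOn (fun a => a :: v) (B : Set ℕ) := fun a _ b _ h => by simpa using h
  have key := real_prod hW (path v ∪ B.image fun a => a :: v)
    (by simp [nil_notMem_path]) (fun u => if u ∈ path v then g else h)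
    (fun u => by split_ifs <;> assumption) (fun u _ => by split_ifs <;> assumption)
  have e1 : ∀ F : (ℝ → ℝ) → List ℕ → ℝ, ∏ u ∈ path v ∪ B.image (fun a => a :: v),
      F (if u ∈ path v then g else h) u = (∏ u ∈ path v, F g u) * ∏ a ∈ B, F h (a :: v) := by
    intro F
    rw [prod_union hdis, prod_image hinj]
    congr 1
    · exact prod_congr rfl fun u hu => by rw [if_pos hu]
    · exact prod_congr rfl fun a _ => by rw [if_neg (cons_notMem_path a v)]
  have e2 := fun ω => e1 (fun k u => k (W u ω))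
  have e3 := e1 (fun k _ => ∫ x, k x ∂ν)
  simp only [e2, e3] at key
  exact key

end

lemma sq_integral_abs_le [IsProbabilityMeasure μ] {F : Ω → ℝ} (h1 : Integrable F μ)
    (h2 : Integrable (fun ω => F ω ^ 2) μ) : (∫ ω, |F ω| ∂μ) ^ 2 ≤ ∫ ω, F ω ^ 2 ∂μ := by
  set m := ∫ ω, |F ω| ∂μ with hm
  have h3 : 0 ≤ ∫ ω, (F ω ^ 2 - 2 * m * |F ω| + m ^ 2) ∂μ :=
    integral_nonneg fun ω => by
      have := sq_nonneg (|F ω| - m)
      have e := sq_abs (F ω)
      simp only [Pi.zero_apply]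
      nlinarith
  have h4 : Integrable (fun ω => F ω ^ 2 - 2 * m * |F ω|) μ := h2.sub (h1.abs.const_mul _)
  rw [integral_add h4 (integrable_const _),
    integral_sub h2 (h1.abs.const_mul _), integral_const_mul, integral_const] at h3
  simp only [probReal_univ, smul_eq_mul, one_mul] at h3
  nlinarith

theorem product_tree (ν : Measure ℝ) [IsProbabilityMeasure ν] (hpos : ν (Set.Ioi 0) = 1)
    (hnc : ∀ c : ℝ, ν ≠ Measure.dirac c) (hmean : ∫ x, x ∂ν = 1)
    (hm2 : Integrable (fun x : ℝ => x ^ 2) ν) [IsProbabilityMeasure μ]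
    (W : List ℕ → Ω → ℝ) (hW : IsRealization ν μ W) :
    ∃ (X : List ℕ → productSpan μ W) (c : ℝ), 0 < c ∧ (∀ v, ‖X v‖ = 1) ∧
      (∀ k v, ‖X (k :: v) - X v‖ = c) ∧
      ∀ v, ∃ C : ℝ, ∀ (A : Finset ℕ) (σ : ℕ → ℝ), (∀ k, |σ k| ≤ 1) →
        ‖∑ k ∈ A, σ k • (X (k :: v) - X v)‖ ^ 2 ≤ C * A.card := by
  have hid : Integrable (fun x : ℝ => x) ν := by
    by_contra h
    rw [integral_undef h] at hmean
    norm_num at hmean
  have hae : ∀ᵐ x ∂ν, 0 < x := by
    have := (prob_compl_eq_zero_iff (μ := ν) measurableSet_Ioi).2 hpos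
    exact this
  have habs : ∫ x, |x| ∂ν = 1 := by
    rw [← hmean]
    refine integral_congr_ae ?_
    filter_upwards [hae] with x hx
    exact abs_of_pos hx
  have hsub : Integrable (fun x : ℝ => x - 1) ν := hid.sub (integrable_const _)
  have hsub0 : ∫ x, (x - 1) ∂ν = 0 := by
    rw [integral_sub hid (integrable_const _), hmean]; simp
  have hsq : Integrable (fun x : ℝ => (x - 1) ^ 2) ν := by
    have := (hm2.sub (hid.const_mul 2)).add (integrable_const (1 : ℝ))
    refine this.congr (Eventually.of_forall fun x => ?_)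
    simp only [Pi.add_apply, Pi.sub_apply]; ring
  have hc : 0 < ∫ x, |x - 1| ∂ν := by
    rcases (integral_nonneg (μ := ν) (f := fun x : ℝ => |x - 1|)
      fun x => abs_nonneg _).lt_or_eq with h | h
    · exact h
    · exfalso
      have h1 := (integral_eq_zero_iff_of_nonneg (fun x => abs_nonneg _) hsub.abs).1 h.symm
      have h2 : (id : ℝ → ℝ) =ᵐ[ν] fun _ => (1 : ℝ) := by
        filter_upwards [h1] with x hx
        have : |x - 1| = 0 := hx
        rw [abs_eq_zero] at this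
        simp only [id]; linarith
      have h3 : ν.map id = Measure.dirac (1 : ℝ) := (hasLaw_dirac_of_ae_eq h2).map_eq
      rw [Measure.map_id] at h3
      exact hnc 1 h3
  have hint : ∀ v, Integrable (pathProduct W v) μ := fun v => by
    have := (P1 hW v measurable_id hid).1
    refine this.congr (Eventually.of_forall fun ω => ?_)
    simp [pathProduct_eq]
  let X : List ℕ → productSpan μ W := fun v => ⟨(hint v).toL1 _,
    Submodule.le_topologicalClosure _ (Submodule.subset_span ⟨v, Integrable.coeFn_toL1 _⟩)⟩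
  have hX : ∀ v, ((X v : Lp ℝ 1 μ) : Ω → ℝ) =ᵐ[μ] fun ω => ∏ u ∈ path v, W u ω := fun v => by
    filter_upwards [Integrable.coeFn_toL1 (hint v)] with ω hω
    rw [← pathProduct_eq]; exact hω
  have hY : ∀ k v, (((X (k :: v) - X v : productSpan μ W) : Lp ℝ 1 μ) : Ω → ℝ) =ᵐ[μ]
      fun ω => (∏ u ∈ path v, W u ω) * (W (k :: v) ω - 1) := fun k v => by
    filter_upwards [hX (k :: v), hX v, Lp.coeFn_sub (X (k :: v) : Lp ℝ 1 μ) (X v : Lp ℝ 1 μ)]
      with ω h1 h2 h3
    rw [Submodule.coe_sub, h3, Pi.sub_apply, h1, h2, path, prod_insert (cons_notMem_path k v)]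
    ring
  have hnorm : ∀ y : productSpan μ W, ‖y‖ = ∫ ω, |(y : Lp ℝ 1 μ) ω| ∂μ := fun y => by
    rw [Submodule.coe_norm, L1.norm_eq_integral_norm]; rfl
  refine ⟨X, ∫ x, |x - 1| ∂ν, hc, fun v => ?_, fun k v => ?_, fun v => ?_⟩
  · have := (P1 hW v (g := fun x => |x|) (by fun_prop) hid.abs).2
    rw [habs, prod_const_one] at this
    rw [hnorm, ← this]
    refine integral_congr_ae ?_
    filter_upwards [hX v] with ω hω
    rw [hω, abs_prod]
  · have := (P2 hW v {k} (g := fun x => |x|) (h := fun x => |x - 1|) (by fun_prop) hid.abs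
      (by fun_prop) hsub.abs).2
    rw [habs, prod_const_one, one_mul, prod_singleton] at this
    rw [hnorm, ← this]
    refine integral_congr_ae ?_
    filter_upwards [hY k v] with ω hω
    rw [hω, abs_mul, abs_prod, prod_singleton]
  · set C := (∏ _u ∈ path v, ∫ x, x ^ 2 ∂ν) * ∫ x, (x - 1) ^ 2 ∂ν with hC
    have hC0 : 0 ≤ C := mul_nonneg (prod_nonneg fun _ _ => integral_nonneg fun x => sq_nonneg _)
      (integral_nonneg fun x => sq_nonneg _)
    refine ⟨C, fun A σ hσ => ?_⟩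
    set Y : ℕ → Ω → ℝ := fun k ω => (∏ u ∈ path v, W u ω) * (W (k :: v) ω - 1) with hYdef
    have hYY : ∀ k l, Integrable (fun ω => Y k ω * Y l ω) μ ∧
        ∫ ω, Y k ω * Y l ω ∂μ = if k = l then C else 0 := by
      intro k l
      by_cases hkl : k = l
      · subst hkl
        have := P2 hW v {k} (g := fun x => x ^ 2) (h := fun x => (x - 1) ^ 2) (by fun_prop) hm2
          (by fun_prop) hsq
        simp only [prod_singleton] at this
        have e : (fun ω => Y k ω * Y k ω) =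
            fun ω => (∏ u ∈ path v, W u ω ^ 2) * (W (k :: v) ω - 1) ^ 2 := by
          ext ω; simp only [hYdef, prod_pow]; ring
        rw [if_pos rfl, e]
        exact this
      · have := P2 hW v {k, l} (g := fun x => x ^ 2) (h := fun x => x - 1) (by fun_prop) hm2
          (by fun_prop) hsub
        simp only [prod_pair hkl, hsub0, mul_zero] at this
        have e : (fun ω => Y k ω * Y l ω) =
            fun ω => (∏ u ∈ path v, W u ω ^ 2) * ((W (k :: v) ω - 1) * (W (l :: v) ω - 1)) := by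
          ext ω; simp only [hYdef, prod_pow]; ring
        rw [if_neg hkl, e]
        exact this
    have hF : (((∑ k ∈ A, σ k • (X (k :: v) - X v) : productSpan μ W) : Lp ℝ 1 μ) : Ω → ℝ) =ᵐ[μ]
        fun ω => ∑ k ∈ A, σ k * Y k ω := by
      rw [Submodule.coe_sum]
      have h1 : ∀ᵐ ω ∂μ, ∀ k, (((σ k • (X (k :: v) - X v) : productSpan μ W) : Lp ℝ 1 μ) :
          Ω → ℝ) ω = σ k * Y k ω := by
        rw [ae_all_iff]
        intro k
        filter_upwards [hY k v, Lp.coeFn_smul (σ k)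
          ((X (k :: v) - X v : productSpan μ W) : Lp ℝ 1 μ)] with ω h1 h2
        rw [Submodule.coe_smul, h2, Pi.smul_apply, h1, smul_eq_mul]
      filter_upwards [h1, Lp.coeFn_finsetSum A
        (fun k => ((σ k • (X (k :: v) - X v) : productSpan μ W) : Lp ℝ 1 μ))] with ω h1 h2
      rw [h2, Finset.sum_apply]
      exact sum_congr rfl fun k _ => h1 k
    have hFi : Integrable (fun ω => ∑ k ∈ A, σ k * Y k ω) μ :=
      (L1.integrable_coeFn _).congr hF
    have e : (fun ω => (∑ k ∈ A, σ k * Y k ω) ^ 2) =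
        fun ω => ∑ k ∈ A, ∑ l ∈ A, σ k * σ l * (Y k ω * Y l ω) := by
      ext ω
      rw [sq, sum_mul_sum]
      exact sum_congr rfl fun k _ => sum_congr rfl fun l _ => by ring
    have hFi2 : Integrable (fun ω => (∑ k ∈ A, σ k * Y k ω) ^ 2) μ := by
      rw [e]
      exact integrable_finsetSum _ fun k _ => integrable_finsetSum _ fun l _ =>
        (hYY k l).1.const_mul _
    have h1 := sq_integral_abs_le hFi hFi2
    have h2 : ‖∑ k ∈ A, σ k • (X (k :: v) - X v)‖ = ∫ ω, |∑ k ∈ A, σ k * Y k ω| ∂μ := by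
      rw [hnorm]
      refine integral_congr_ae ?_
      filter_upwards [hF] with ω hω
      rw [hω]
    rw [h2]
    refine h1.trans ?_
    rw [e, integral_finsetSum _ fun k _ => integrable_finsetSum _ fun l _ =>
        (hYY k l).1.const_mul _, mul_comm, ← nsmul_eq_mul, ← sum_const]
    refine sum_le_sum fun k hk => ?_
    rw [integral_finsetSum _ fun l _ => (hYY k l).1.const_mul _]
    simp only [integral_const_mul, (hYY _ _).2, mul_ite, mul_zero, sum_ite_eq, hk, if_true]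
    have : σ k * σ k ≤ 1 := by
      have := hσ k
      rw [abs_le] at this
      nlinarith
    nlinarith

/-- a tree with uniformly separated, sign-bounded increments gives the data of the criterion -/
lemma tree_of_family {Y : Type*} [NormedAddCommGroup Y] [NormedSpace ℝ Y] (X : List ℕ → Y)
    (c : ℝ) (v₀ : List ℕ) (n : ℕ)
    (h1 : ∀ v, v₀ <:+ v → v.length ≤ v₀.length + n → c ≤ ‖X v‖ ∧ ‖X v‖ ≤ 1)
    (h2 : ∀ k v, v₀ <:+ v → v.length < v₀.length + n → c ≤ ‖X (k :: v) - X v‖)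
    (h3 : ∀ v, v₀ <:+ v → v.length < v₀.length + n →
      ∃ C : ℝ, ∀ (A : Finset ℕ) (σ : ℕ → ℝ), (∀ k, |σ k| ≤ 1) →
        ‖∑ k ∈ A, σ k • (X (k :: v) - X v)‖ ^ 2 ≤ C * A.card) :
    ∃ T : ℕ → Set Y, (T 0).Nonempty ∧ (∀ i ≤ n, ∀ x ∈ T i, c ≤ ‖x‖ ∧ ‖x‖ ≤ 1) ∧
      ∀ i < n, ∀ x ∈ T i, ∀ S : Submodule ℝ Y, Cof S → ∀ ε > 0,
        ∃ z ∈ T (i + 1), ∃ y ∈ S, ‖z - x - y‖ < ε ∧ c ≤ ‖z - x‖ := by
  refine ⟨fun i => X '' {v | v₀ <:+ v ∧ v.length = v₀.length + i},
    ⟨_, v₀, ⟨List.suffix_refl _, rfl⟩, rfl⟩, ?_, ?_⟩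
  · rintro i hi _ ⟨v, ⟨hv1, hv2⟩, rfl⟩
    exact h1 v hv1 (by omega)
  · rintro i hi _ ⟨v, ⟨hv1, hv2⟩, rfl⟩ S hS ε hε
    obtain ⟨C, hC⟩ := h3 v hv1 (by omega)
    obtain ⟨k, s, hs, hk⟩ := close_of_sign_bound (fun k => X (k :: v) - X v) C hC hS ε hε
    exact ⟨_, ⟨k :: v, ⟨hv1.trans (List.suffix_cons k v), by simp; omega⟩, rfl⟩, s, hs, hk,
      h2 k v hv1 (by omega)⟩

lemma not_finiteDimensional_of_sign_bound {Y : Type*} [NormedAddCommGroup Y] [NormedSpace ℝ Y]
    (y : ℕ → Y) (c : ℝ) (hc : 0 < c) (h1 : ∀ k, c ≤ ‖y k‖) (C : ℝ)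
    (h : ∀ (A : Finset ℕ) (σ : ℕ → ℝ), (∀ k, |σ k| ≤ 1) → ‖∑ k ∈ A, σ k • y k‖ ^ 2 ≤ C * A.card) :
    ¬ FiniteDimensional ℝ Y := by
  intro hfd
  have hS : Cof (⊥ : Submodule ℝ Y) := ⟨by simp, inferInstance⟩
  obtain ⟨k, s, hs, hk⟩ := close_of_sign_bound y C h hS c hc
  rw [(Submodule.mem_bot ℝ).1 hs, sub_zero] at hk
  exact absurd (h1 k) (not_le.2 hk)

end Crest.Agent.R125
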