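import Mathlib
import Crest.Agent.R125.Mix
import Crest.Agent.R125.Products

set_option autoImplicit false

namespace Crest.Agent.R125

open Finset Crest.AnalysisR.TreePotential

/-- the ambient space of bounded functions on the tests -/
abbrev Amb (K : (List ℕ → ℝ) → Prop) : Type := lp (fun _ : {f // K f} => ℝ) ⊤

/-- the closed span of the coordinate vectors -/
noncomputable abbrev Sp {K : (List ℕ → ℝ) → Prop} (e : List ℕ → Amb K) : Submodule ℝ (Amb K) :=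
  (Submodule.span ℝ (Set.range e)).topologicalClosure

variable {K : (List ℕ → ℝ) → Prop} {e : List ℕ → Amb K}

/-- evaluation at a test -/
noncomputable def ev (f : List ℕ → ℝ) (hf : K f) : Amb K →L[ℝ] ℝ :=
  lp.evalCLM ℝ (fun _ : {f // K f} => ℝ) ⊤ ⟨f, hf⟩

lemma ev_apply (f : List ℕ → ℝ) (hf : K f) (y : Amb K) : ev f hf y = y ⟨f, hf⟩ := rfl

lemma abs_ev_le (f : List ℕ → ℝ) (hf : K f) (y : Amb K) : |ev f hf y| ≤ ‖y‖ :=
  lp.norm_apply_le_norm (by simp) y ⟨f, hf⟩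

lemma ev_le (f : List ℕ → ℝ) (hf : K f) (y : Amb K) : ev f hf y ≤ ‖y‖ :=
  (le_abs_self _).trans (abs_ev_le f hf y)

open Classical in
/-- coordinate functional -/
noncomputable def coord (K : (List ℕ → ℝ) → Prop) (s : List ℕ) : Amb K →L[ℝ] ℝ :=
  if h : K (delta s) then ev _ h else 0

lemma ext_sp (L L' : Amb K →L[ℝ] ℝ) (h : ∀ s, L (e s) = L' (e s)) (y : Sp e) : L y = L' y := by
  refine ContinuousLinearMap.eqOn_closure_span (s := Set.range e) ?_ y.2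
  rintro _ ⟨s, rfl⟩
  exact h s

/-- coordinate vector inside the closed span -/
noncomputable def eS (e : List ℕ → Amb K) (s : List ℕ) : Sp e :=
  ⟨e s, Submodule.le_topologicalClosure _ (Submodule.subset_span ⟨s, rfl⟩)⟩

lemma norm_le_of_ev {y : Amb K} {C : ℝ} (hC : 0 ≤ C) (h : ∀ f (hf : K f), |ev f hf y| ≤ C) :
    ‖y‖ ≤ C :=
  lp.norm_le_of_forall_le hC fun f => h f.1 f.2

lemma exists_ev (hK : GoodK K) (he : ∀ s f (hf : K f), ev f hf (e s) = f s) (y : Sp e)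
    (η : ℝ) (hη : 0 < η) : ∃ f, ∃ hf : K f, ‖y‖ - η < ev f hf y := by
  by_contra h
  push Not at h
  have h0 : 0 ≤ ‖y‖ - η := by
    have h1 := h _ hK.zero
    have h2 := ext_sp (e := e) (ev _ hK.zero) 0 (fun s => by rw [he]; rfl) y
    rw [h2] at h1
    exact h1
  have : ‖(y : Amb K)‖ ≤ ‖y‖ - η := by
    refine norm_le_of_ev h0 fun f hf => abs_le.2 ⟨?_, h f hf⟩
    have h1 := h _ (hK.neg hf)
    have h2 := ext_sp (e := e) (ev _ (hK.neg hf)) (-ev f hf) (fun s => by simp [he]) y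
    rw [h2] at h1
    simp only [neg_apply] at h1
    linarith
  rw [← Submodule.coe_norm] at this
  linarith

lemma exists_approx (y : Sp e) (η : ℝ) (hη : 0 < η) :
    ∃ (A : Finset (List ℕ)) (c : List ℕ → ℝ), ‖(y : Amb K) - ∑ s ∈ A, c s • e s‖ < η := by
  obtain ⟨x, hx, hxy⟩ := Metric.mem_closure_iff.1 y.2 η hη
  obtain ⟨c, rfl⟩ := Finsupp.mem_span_range_iff_exists_finsupp.1 hx
  exact ⟨c.support, c, by rwa [dist_eq_norm] at hxy⟩

lemma sum_coord (hK : GoodK K) (he : ∀ s f (hf : K f), ev f hf (e s) = f s)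
    {g : List ℕ → ℝ} (hg : K g) (T : Finset (List ℕ)) (u : List ℕ) :
    ∑ s ∈ T, g s * coord K s (e u) = if u ∈ T then g u else 0 := by
  rw [← sum_ite_eq T u g]
  refine sum_congr rfl fun s _ => ?_
  unfold coord
  split_ifs with h1 h2 h2
  · rw [he, h2]; simp [delta]
  · rw [he]; simp [delta, h2]
  · rw [(hK.del s).resolve_left h1 g hg, zero_mul]
  · simp

theorem four_point_sum (hK : GoodK K) (he : ∀ s f (hf : K f), ev f hf (e s) = f s) (x : Sp e)
    (η : ℝ) (hη : 0 < η) : ∃ S : Submodule ℝ (Sp e), Cof S ∧ ∀ z z' : Sp e, z - z' ∈ S →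
      ∀ a b : ℝ, 0 ≤ a → 0 ≤ b → b ≤ 1 / 2 → a ^ 2 + b ^ 2 ≤ 1 →
        4 * a * ‖x‖ + b * ‖z - z'‖ - η ≤ ‖x + z‖ + ‖x - z‖ + ‖x + z'‖ + ‖x - z'‖ := by
  obtain ⟨A, c, hA⟩ := exists_approx x (η / 13) (by positivity)
  obtain ⟨T, hAT, hT0, hT⟩ := exists_closed A
  obtain ⟨f, hf, hfx⟩ := exists_ev hK he x (η / 13) (by positivity)
  obtain ⟨S, hS, hS2⟩ := cof_finset T fun s => (coord K s).comp (Sp e).subtypeL
  refine ⟨S, hS, fun z z' hz a b ha0 hb0 hb1 hab => ?_⟩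
  have ha1 : a ≤ 1 := by nlinarith
  obtain ⟨g, hg, hgz⟩ := exists_ev hK he (z - z') (η / 13) (by positivity)
  obtain ⟨F₁, F₂, h1, h2, h12, h12'⟩ := hK.mix hf hg T hT0 hT a b ha0 hb0 hb1 hab
  obtain ⟨F₃, F₄, h3, h4, h34, h34'⟩ := hK.mix hf (hK.neg hg) T hT0 hT a b ha0 hb0 hb1 hab
  have hx : ∀ F (hF : K F), (∀ s ∈ T, F s = a * f s) → a * ‖x‖ - 3 * (η / 13) ≤ ev F hF x := by
    intro F hF hFT
    have e1 : ev F hF (∑ s ∈ A, c s • e s) = a * ev f hf (∑ s ∈ A, c s • e s) := by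
      simp only [map_sum, map_smul, he, smul_eq_mul, mul_sum]
      exact sum_congr rfl fun s hs => by rw [hFT s (hAT hs)]; ring
    have e2 := abs_ev_le F hF ((x : Amb K) - ∑ s ∈ A, c s • e s)
    have e3 := abs_ev_le f hf ((x : Amb K) - ∑ s ∈ A, c s • e s)
    rw [map_sub, abs_le] at e2 e3
    have e4 : ‖x‖ - 2 * (η / 13) ≤ ev f hf (∑ s ∈ A, c s • e s) := by linarith [e3.2]
    have e5 := mul_le_mul_of_nonneg_left e4 ha0
    nlinarith [e2.1]
  set L : Amb K →L[ℝ] ℝ := b • (ev g hg - ∑ s ∈ T, g s • coord K s) with hL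
  have hLe : ∀ u, L (e u) = if u ∈ T then 0 else b * g u := by
    intro u
    have : L (e u) = b * (g u - ∑ s ∈ T, g s * coord K s (e u)) := by
      simp [hL, he]
    rw [this, sum_coord hK he hg]
    split_ifs <;> ring
  have hL1 : ev F₁ h1 z - ev F₂ h2 z = L z :=
    ext_sp (e := e) (ev F₁ h1 - ev F₂ h2) L (fun u => by
      rw [hLe, sub_apply, he, he]
      split_ifs with h
      · rw [(h12 u h).1, (h12 u h).2, sub_self]
      · exact h12' u h) z
  have hL2 : ev F₄ h4 z' - ev F₃ h3 z' = L z' :=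
    ext_sp (e := e) (ev F₄ h4 - ev F₃ h3) L (fun u => by
      rw [hLe, sub_apply, he, he]
      split_ifs with h
      · rw [(h34 u h).1, (h34 u h).2, sub_self]
      · have := h34' u h
        linarith) z'
  have hL3 : L z - L z' = b * ev g hg ((z - z' : Sp e) : Amb K) := by
    have h5 : ∑ s ∈ T, g s * coord K s ((z - z' : Sp e) : Amb K) = 0 :=
      sum_eq_zero fun s hs => by
        have : coord K s ((z - z' : Sp e) : Amb K) = 0 := (hS2 _).1 hz s hs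
        rw [this, mul_zero]
    have h6 : L ((z - z' : Sp e) : Amb K) = b * (ev g hg ((z - z' : Sp e) : Amb K) -
        ∑ s ∈ T, g s * coord K s ((z - z' : Sp e) : Amb K)) := by
      simp [hL]
    rw [h5, sub_zero] at h6
    rw [← h6, ← map_sub]; rfl
  have k1 := ev_le F₁ h1 ((x + z : Sp e) : Amb K)
  have k2 := ev_le F₂ h2 ((x - z : Sp e) : Amb K)
  have k3 := ev_le F₃ h3 ((x + z' : Sp e) : Amb K)
  have k4 := ev_le F₄ h4 ((x - z' : Sp e) : Amb K)
  rw [← Submodule.coe_norm] at k1 k2 k3 k4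
  rw [Submodule.coe_add, map_add] at k1 k3
  rw [Submodule.coe_sub, map_sub] at k2 k4
  have m1 := hx F₁ h1 fun s hs => (h12 s hs).1
  have m2 := hx F₂ h2 fun s hs => (h12 s hs).2
  have m3 := hx F₃ h3 fun s hs => (h34 s hs).1
  have m4 := hx F₄ h4 fun s hs => (h34 s hs).2
  have m5 := mul_le_mul_of_nonneg_left hgz.le hb0
  nlinarith

lemma le_of_sq_le_sq' {a b : ℝ} (h : a ^ 2 ≤ b ^ 2) (hb : 0 ≤ b) : a ≤ b :=
  le_trans (le_abs_self a) (abs_le_of_sq_le_sq' h hb |> fun h' => abs_le.2 h')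

/-- the four point property -/
def FourPt (Y : Type*) [NormedAddCommGroup Y] [NormedSpace ℝ Y] : Prop :=
  ∀ x : Y, ∀ η > 0, ∃ S : Submodule ℝ Y, Cof S ∧ ∀ z z' : Y, z - z' ∈ S →
    4 * ‖x‖ ^ 2 + ‖z - z'‖ ^ 2 / 4 - η ≤ ‖x + z‖ ^ 2 + ‖x - z‖ ^ 2 + ‖x + z'‖ ^ 2 + ‖x - z'‖ ^ 2

lemma four_triv {Y : Type*} [NormedAddCommGroup Y] (x z z' : Y) :
    2 * ‖z - z'‖ ≤ ‖x + z‖ + ‖x - z‖ + ‖x + z'‖ + ‖x - z'‖ := by
  have h1 := norm_sub_le (x + z) (x + z')
  have h2 := norm_sub_le (x - z') (x - z)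
  rw [show x + z - (x + z') = z - z' by abel] at h1
  rw [show x - z' - (x - z) = z - z' by abel] at h2
  linarith

lemma four_triv_sq {Y : Type*} [NormedAddCommGroup Y] (x z z' : Y) :
    ‖z - z'‖ ^ 2 ≤ ‖x + z‖ ^ 2 + ‖x - z‖ ^ 2 + ‖x + z'‖ ^ 2 + ‖x - z'‖ ^ 2 := by
  have h := pow_le_pow_left₀ (by positivity) (four_triv x z z') 2
  nlinarith [sq_nonneg (‖x + z‖ - ‖x - z‖), sq_nonneg (‖x + z‖ - ‖x + z'‖),
    sq_nonneg (‖x + z‖ - ‖x - z'‖), sq_nonneg (‖x - z‖ - ‖x + z'‖), sq_nonneg (‖x - z‖ - ‖x - z'‖),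
    sq_nonneg (‖x + z'‖ - ‖x - z'‖)]

theorem fourPt_sp (hK : GoodK K) (he : ∀ s f (hf : K f), ev f hf (e s) = f s) : FourPt (Sp e) := by
  intro x η hη
  obtain ⟨S, hS, hS2⟩ := four_point_sum hK he x (η / (4 * (‖x‖ + 1))) (by positivity)
  refine ⟨S, hS, fun z z' hz => ?_⟩
  set u := ‖x‖ with hu
  set w := ‖z - z'‖ with hw
  have hu0 : 0 ≤ u := norm_nonneg _
  have hw0 : 0 ≤ w := norm_nonneg _
  rcases le_total (u ^ 2) (3 * w ^ 2 / 16) with h | h
  · have := four_triv_sq x z z'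
    nlinarith
  rcases hu0.eq_or_lt with h0 | h0
  · have := four_triv_sq x z z'
    rw [← h0]
    nlinarith [sq_nonneg w]
  set r := Real.sqrt (u ^ 2 + w ^ 2 / 16) with hr
  have hr2 : r ^ 2 = u ^ 2 + w ^ 2 / 16 := Real.sq_sqrt (by positivity)
  have hr0 : 0 < r := Real.sqrt_pos.2 (by positivity)
  have hwr : w ≤ 2 * r := by
    refine le_of_sq_le_sq' ?_ ?_ <;> first | positivity | nlinarith
  have hru : r ≤ 2 * u := by
    refine le_of_sq_le_sq' ?_ ?_ <;> first | positivity | nlinarith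
  have h1 := hS2 z z' hz (u / r) (w / 4 / r) (by positivity) (by positivity)
    (by rw [div_le_iff₀ hr0]; linarith) (by
      rw [div_pow, div_pow, ← add_div, div_le_one (by positivity), hr2]; linarith)
  have h2 : 4 * (u / r) * u + w / 4 / r * w = 4 * r := by
    field_simp
    nlinarith
  rw [h2] at h1
  set δ := η / (4 * (u + 1)) with hδ
  have hδ0 : 0 < δ := by positivity
  have hδ1 : 4 * u * δ ≤ η := by
    rw [hδ, ← mul_div_assoc, div_le_iff₀ (by positivity)]; nlinarith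
  set s₁ := ‖x + z‖
  set s₂ := ‖x - z‖
  set s₃ := ‖x + z'‖
  set s₄ := ‖x - z'‖
  have hs : 0 ≤ s₁ + s₂ + s₃ + s₄ := by positivity
  have h3 : 16 * r ^ 2 - 8 * r * δ ≤ (s₁ + s₂ + s₃ + s₄) ^ 2 := by
    rcases le_total (4 * r) δ with h4 | h4
    · nlinarith [sq_nonneg (s₁ + s₂ + s₃ + s₄)]
    · have := pow_le_pow_left₀ (by linarith) h1 2
      nlinarith [sq_nonneg δ]
  have h4 : (s₁ + s₂ + s₃ + s₄) ^ 2 ≤ 4 * (s₁ ^ 2 + s₂ ^ 2 + s₃ ^ 2 + s₄ ^ 2) := by
    nlinarith [sq_nonneg (s₁ - s₂), sq_nonneg (s₁ - s₃), sq_nonneg (s₁ - s₄), sq_nonneg (s₂ - s₃),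
      sq_nonneg (s₂ - s₄), sq_nonneg (s₃ - s₄)]
  nlinarith [mul_le_mul_of_nonneg_right hru hδ0.le]

theorem midpoint_sp (hK : GoodK K) (he : ∀ s f (hf : K f), ev f hf (e s) = f s) {t : ℝ}
    (ht0 : 0 < t) (ht1 : t < 1) (x : Sp e) (hx : ‖x‖ = 1) (η : ℝ) (hη : 0 < η) :
    ∃ S : Submodule ℝ (Sp e), Cof S ∧ ∀ y ∈ S, ‖y‖ = 1 →
      (Real.sqrt (1 + t ^ 2 / 4) - 1) - η ≤ (‖x + t • y‖ + ‖x - t • y‖) / 2 - 1 := by
  obtain ⟨S, hS, hS2⟩ := four_point_sum hK he x η hη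
  refine ⟨S, hS, fun y hy hy1 => ?_⟩
  set r := Real.sqrt (1 + t ^ 2 / 4) with hr
  have hr2 : r ^ 2 = 1 + t ^ 2 / 4 := Real.sq_sqrt (by positivity)
  have hr0 : 0 < r := Real.sqrt_pos.2 (by positivity)
  have hr1 : 1 ≤ r := by
    refine le_of_sq_le_sq' ?_ ?_ <;> first | positivity | nlinarith
  have e1 : t • y - -(t • y) = (2 * t) • y := by rw [mul_smul, two_smul]; abel
  have h1 := hS2 (t • y) (-(t • y)) (by rw [e1]; exact S.smul_mem _ hy) (1 / r) (t / 2 / r)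
    (by positivity) (by positivity) (by rw [div_le_iff₀ hr0]; linarith) (by
      rw [div_pow, div_pow, ← add_div, div_le_one (by positivity), hr2]; linarith)
  rw [e1, norm_smul, hy1, hx, Real.norm_eq_abs, abs_of_pos (by positivity), ← sub_eq_add_neg,
    sub_neg_eq_add] at h1
  have h2 : 4 * (1 / r) * 1 + t / 2 / r * (2 * t * 1) = 4 * r := by
    field_simp
    nlinarith
  rw [h2] at h1
  linarith

/-- the vector whose value at a test is the potential -/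
noncomputable def xv (e : List ℕ → Amb K) : List ℕ → Sp e
  | [] => eS e []
  | a :: v => xv e v + eS e (a :: v)

lemma ev_xv (he : ∀ s f (hf : K f), ev f hf (e s) = f s) (f : List ℕ → ℝ) (hf : K f) :
    ∀ v, ev f hf (xv e v) = pathPotential f v
  | [] => he _ _ _
  | a :: v => by
    rw [xv, Submodule.coe_add, map_add, ev_xv he f hf v, pathPotential]
    congr 1
    exact he _ _ _

lemma xv_sub (k : ℕ) (v : List ℕ) : xv e (k :: v) - xv e v = eS e (k :: v) := by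
  rw [xv]; abel

lemma norm_xv_le (hK : GoodK K) (he : ∀ s f (hf : K f), ev f hf (e s) = f s) (v : List ℕ) :
    ‖xv e v‖ ≤ 1 := by
  rw [Submodule.coe_norm]
  exact norm_le_of_ev zero_le_one fun f hf => by rw [ev_xv he]; exact hK.pot f hf v

lemma one_le_norm_xv (he : ∀ s f (hf : K f), ev f hf (e s) = f s) (v : List ℕ)
    (hv : K (delta v)) : 1 ≤ ‖xv e v‖ := by
  have := ev_le _ hv (xv e v : Amb K)
  rw [ev_xv he, pot_delta, if_pos (List.suffix_refl _)] at this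
  exact this

lemma one_le_norm_eS (he : ∀ s f (hf : K f), ev f hf (e s) = f s) (v : List ℕ)
    (hv : K (delta v)) : 1 ≤ ‖eS e v‖ := by
  have := ev_le _ hv (e v)
  rw [he] at this
  have h : delta v v = 1 := if_pos rfl
  rw [h] at this
  exact this

lemma sign_bound_eS (hK : GoodK K) (he : ∀ s f (hf : K f), ev f hf (e s) = f s) (v : List ℕ)
    (A : Finset ℕ) (σ : ℕ → ℝ) (hσ : ∀ k, |σ k| ≤ 1) :
    ‖∑ k ∈ A, σ k • eS e (k :: v)‖ ^ 2 ≤ 1 * A.card := by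
  have h : ‖∑ k ∈ A, σ k • eS e (k :: v)‖ ≤ Real.sqrt A.card := by
    rw [Submodule.coe_norm]
    refine norm_le_of_ev (Real.sqrt_nonneg _) fun f hf => ?_
    have e1 : ev f hf ((∑ k ∈ A, σ k • eS e (k :: v) : Sp e) : Amb K) =
        ∑ k ∈ A, σ k * f (k :: v) := by
      rw [Submodule.coe_sum, map_sum]
      refine sum_congr rfl fun k _ => ?_
      rw [Submodule.coe_smul, map_smul, smul_eq_mul]
      congr 1
      exact he _ _ _
    rw [e1]
    apply Real.abs_le_sqrt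
    have h1 := sum_mul_sq_le_sq_mul_sq A σ fun k => f (k :: v)
    have h2 := hK.sib f hf v A
    have h3 : ∑ k ∈ A, σ k ^ 2 ≤ A.card := by
      rw [← mul_one (A.card : ℝ), ← nsmul_eq_mul, ← sum_const]
      exact sum_le_sum fun k _ => by
        have := hσ k
        rw [← sq_abs]
        nlinarith [abs_nonneg (σ k)]
    have h4 : 0 ≤ ∑ k ∈ A, σ k ^ 2 := sum_nonneg fun _ _ => sq_nonneg _
    nlinarith
  have := pow_le_pow_left₀ (norm_nonneg _) h 2
  rwa [Real.sq_sqrt (by positivity), ← one_mul (A.card : ℝ)] at this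

theorem tree_sp (hK : GoodK K) (he : ∀ s f (hf : K f), ev f hf (e s) = f s) (n : ℕ)
    (hd : ∀ v : List ℕ, v ≠ [] → v.length ≤ n + 1 → K (delta v))
    {Z : Type*} [NormedAddCommGroup Z] [NormedSpace ℝ Z] (L : Sp e →ₗᵢ[ℝ] Z) :
    ∃ T : ℕ → Set Z, (T 0).Nonempty ∧ (∀ i ≤ n, ∀ x ∈ T i, 1 ≤ ‖x‖ ∧ ‖x‖ ≤ 1) ∧
      ∀ i < n, ∀ x ∈ T i, ∀ S : Submodule ℝ Z, Cof S → ∀ ε > 0,
        ∃ z ∈ T (i + 1), ∃ y ∈ S, ‖z - x - y‖ < ε ∧ 1 ≤ ‖z - x‖ := by
  refine tree_of_family (fun v => L (xv e v)) 1 [0] n ?_ ?_ ?_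
  · intro v h1 h2
    rw [L.norm_map]
    refine ⟨one_le_norm_xv he v (hd v ?_ ?_), norm_xv_le hK he v⟩
    · rintro rfl; simp at h1
    · simp at h2; omega
  · intro k v _ h2
    rw [← map_sub, L.norm_map, xv_sub]
    refine one_le_norm_eS he _ (hd _ (by simp) ?_)
    simp at h2 ⊢; omega
  · intro v _ _
    refine ⟨1, fun A σ hσ => ?_⟩
    simp only [← map_sub, xv_sub, ← map_smul, ← map_sum, L.norm_map]
    exact sign_bound_eS hK he v A σ hσ

theorem separable_sp : TopologicalSpace.SeparableSpace (Sp e) :=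
  ((Set.countable_range e).isSeparable.span (R := ℝ)).closure.separableSpace

theorem infinite_sp (hK : GoodK K) (he : ∀ s f (hf : K f), ev f hf (e s) = f s)
    (hd : ∀ k : ℕ, K (delta [k]))
    {Z : Type*} [NormedAddCommGroup Z] [NormedSpace ℝ Z] (L : Sp e →ₗᵢ[ℝ] Z) :
    ¬ FiniteDimensional ℝ Z := by
  refine not_finiteDimensional_of_sign_bound (fun k => L (eS e [k])) 1 one_pos (fun k => ?_) 1
    fun A σ hσ => ?_
  · rw [L.norm_map]; exact one_le_norm_eS he _ (hd k)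
  · simp only [← map_smul, ← map_sum, L.norm_map]
    exact sign_bound_eS hK he [] A σ hσ

end Crest.Agent.R125
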