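import Mathlib
import Crest.Agent.R125.Potential

set_option autoImplicit false

namespace Crest.Agent.R125

open Finset Filter Topology Crest.AnalysisR.TreePotential

/-- reflexivity, in elementary form -/
def Refl (Y : Type*) [NormedAddCommGroup Y] [NormedSpace ℝ Y] : Prop :=
  ∀ ξ : (Y →L[ℝ] ℝ) →L[ℝ] ℝ, ∃ x : Y, ∀ φ, ξ φ = φ x

lemma refl_of_embed {Y H : Type*} [NormedAddCommGroup Y] [NormedSpace ℝ Y] [CompleteSpace Y]
    [NormedAddCommGroup H] [InnerProductSpace ℝ H] [CompleteSpace H] (R : Y →L[ℝ] H)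
    (h : ∀ y, ‖y‖ ≤ ‖R y‖) : Refl Y := by
  have hanti : AntilipschitzWith 1 R :=
    AddMonoidHomClass.antilipschitz_of_bound R fun y => by simpa using h y
  have hclo : IsClosed (Set.range R) := hanti.isClosed_range R.uniformContinuous
  have hcomp : CompleteSpace R.range := hclo.completeSpace_coe
  set E := R.equivRange hanti.injective hclo with hE
  set J : H →L[ℝ] Y := (E.symm : R.range →L[ℝ] Y).comp (R.range.orthogonalProjection) with hJ
  have hJR : ∀ y, J (R y) = y := fun y => by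
    have h1 : R.range.orthogonalProjection (R y) = E y :=
      Submodule.orthogonalProjection_mem_subspace_eq_self (K := R.range) (E y)
    simp only [hJ, ContinuousLinearMap.comp_apply, h1]
    exact E.symm_apply_apply y
  intro ξ
  obtain ⟨h₀, hh₀⟩ := (InnerProductSpace.toDual ℝ H).surjective
    (ξ.comp (((ContinuousLinearMap.compL ℝ Y H ℝ).flip R).comp (innerSL ℝ)))
  refine ⟨J h₀, fun φ => ?_⟩
  obtain ⟨k, hk⟩ := (InnerProductSpace.toDual ℝ H).surjective (φ.comp J)
  have h1 : φ = (innerSL ℝ k).comp R := by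
    ext y
    have := congrArg (fun L => L (R y)) hk
    simp only [InnerProductSpace.toDual_apply_apply, ContinuousLinearMap.comp_apply, hJR] at this
    simp [this]
  have h2 := congrArg (fun L => L k) hh₀
  have h3 := congrArg (fun L => L h₀) hk
  simp only [InnerProductSpace.toDual_apply_apply, ContinuousLinearMap.comp_apply,
    ContinuousLinearMap.flip_apply, ContinuousLinearMap.compL_apply] at h2 h3
  rw [← h3, real_inner_comm, h2, ← h1]

lemma hasSum_sq {ι : Type*} {E : ι → Type*} [∀ i, NormedAddCommGroup (E i)] (f : lp E 2) :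
    HasSum (fun i => ‖f i‖ ^ 2) (‖f‖ ^ 2) := by
  simpa using lp.hasSum_norm (p := 2) (by norm_num) f

lemma sum_sq_le {ι : Type*} {E : ι → Type*} [∀ i, NormedAddCommGroup (E i)] (f : lp E 2)
    (A : Finset ι) : ∑ i ∈ A, ‖f i‖ ^ 2 ≤ ‖f‖ ^ 2 :=
  sum_le_hasSum A (fun _ _ => sq_nonneg _) (hasSum_sq f)

lemma memℓp_two {ι : Type*} {E : ι → Type*} [∀ i, NormedAddCommGroup (E i)] {f : ∀ i, E i} {C : ℝ}
    (h : ∀ A : Finset ι, ∑ i ∈ A, ‖f i‖ ^ 2 ≤ C) : Memℓp f 2 :=
  memℓp_gen' (C := C) fun A => by simpa using h A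

lemma norm_le_two {ι : Type*} {E : ι → Type*} [∀ i, NormedAddCommGroup (E i)] {f : lp E 2} {C : ℝ}
    (hC : 0 ≤ C) (h : ∀ A : Finset ι, ∑ i ∈ A, ‖f i‖ ^ 2 ≤ C ^ 2) : ‖f‖ ≤ C :=
  lp.norm_le_of_forall_sum_le (by norm_num) hC fun A => by simpa using h A

lemma pot_bound' (f : List ℕ → ℝ) (c : ℝ) (n : ℕ) (h : ∀ u, |f u| ≤ c)
    (h0 : ∀ u, n < u.length → f u = 0) :
    ∀ u, |pathPotential f u| ≤ (n + 1) * c
  | [] => by
    have := h []
    have h1 : 0 ≤ c := (abs_nonneg _).trans this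
    simp only [pathPotential]
    nlinarith [(Nat.cast_nonneg n : (0 : ℝ) ≤ n)]
  | a :: v => by
    by_cases h1 : n < (a :: v).length
    · rw [pathPotential, h0 _ h1, add_zero]
      exact pot_bound' f c n h h0 v
    · have h2 := pot_bound f c h (a :: v)
      have h3 : (((a :: v).length : ℕ) : ℝ) ≤ n := by exact_mod_cast not_lt.1 h1
      have h4 : 0 ≤ c := (abs_nonneg _).trans (h [])
      nlinarith

variable {K : (List ℕ → ℝ) → Prop} {e : List ℕ → Amb K}

lemma dense_eS : Dense (Submodule.span ℝ (Set.range (eS e)) : Set (Sp e)) := by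
  intro y
  rw [Metric.mem_closure_iff]
  intro η hη
  obtain ⟨A, c, h⟩ := exists_approx y η hη
  refine ⟨∑ s ∈ A, c s • eS e s, Submodule.sum_mem _ fun s _ =>
    Submodule.smul_mem _ _ (Submodule.subset_span ⟨s, rfl⟩), ?_⟩
  rw [dist_eq_norm, Submodule.coe_norm, Submodule.coe_sub, Submodule.coe_sum]
  exact h

theorem refl_kn (n : ℕ) (e : List ℕ → Amb (Kn n))
    (he : ∀ s f (hf : Kn n f), ev f hf (e s) = f s) : Refl (Sp e) := by
  have hK := goodK_kn n
  have hcomp : CompleteSpace (Sp e) := (Submodule.isClosed_topologicalClosure _).completeSpace_coe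
  have hbound : ∀ (y : Sp e) (A : Finset (List ℕ)),
      ∑ s ∈ A, ‖coord (Kn n) s y‖ ^ 2 ≤ ((n + 1) * ‖y‖) ^ 2 := by
    intro y A
    simp only [Real.norm_eq_abs, sq_abs]
    set c : List ℕ → ℝ := fun s => coord (Kn n) s y with hc
    have hN0 : 0 ≤ ∑ s ∈ A, c s ^ 2 := sum_nonneg fun _ _ => sq_nonneg _
    rcases hN0.eq_or_lt with h0 | h0
    · rw [← h0]; positivity
    set N := Real.sqrt (∑ s ∈ A, c s ^ 2) with hN
    have hN2 : N ^ 2 = ∑ s ∈ A, c s ^ 2 := Real.sq_sqrt hN0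
    have hNp : 0 < N := Real.sqrt_pos.2 h0
    set f : List ℕ → ℝ := fun u => if u ∈ A then c u / ((n + 1) * N) else 0 with hf
    have hf0 : ∀ u, n < u.length → f u = 0 := by
      intro u hu
      have : ¬ Kn n (delta u) := fun h => by simpa [delta] using h.2 u hu
      simp [hf, hc, coord, this]
    have hfb : ∀ u, |f u| ≤ 1 / (n + 1) := by
      intro u
      simp only [hf]
      split_ifs with hu
      · have h1 : |c u| ≤ N := Real.abs_le_sqrt
          (single_le_sum (f := fun s => c s ^ 2) (fun _ _ => sq_nonneg _) hu)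
        rw [abs_div, abs_of_pos (by positivity : (0 : ℝ) < (n + 1) * N),
          div_le_div_iff₀ (by positivity) (by positivity)]
        nlinarith [(Nat.cast_nonneg n : (0 : ℝ) ≤ n)]
      · simp; positivity
    have hfK : Kn n f := by
      refine ⟨⟨fun u => ?_, fun B => ?_⟩, hf0⟩
      · have := pot_bound' f _ n hfb hf0 u
        rwa [mul_one_div_cancel (by positivity)] at this
      · calc ∑ u ∈ B, f u ^ 2 = ∑ u ∈ B ∩ A, (c u / ((n + 1) * N)) ^ 2 := by
              rw [← sum_ite_mem]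
              refine sum_congr rfl fun u _ => ?_
              simp only [hf]; split_ifs <;> simp
          _ ≤ ∑ u ∈ A, (c u / ((n + 1) * N)) ^ 2 :=
              sum_le_sum_of_subset_of_nonneg inter_subset_right fun _ _ _ => sq_nonneg _
          _ = 1 / (n + 1) ^ 2 := by
              simp only [div_pow]
              rw [← sum_div, ← hN2]; field_simp
          _ ≤ 1 := by
              rw [div_le_one (by positivity)]
              nlinarith [(Nat.cast_nonneg n : (0 : ℝ) ≤ n)]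
    have h1 : ev f hfK y = (∑ s ∈ A, f s • coord (Kn n) s) y :=
      ext_sp (e := e) _ _ (fun u => by
        rw [he, ContinuousLinearMap.sum_apply]
        simp only [smul_apply, smul_eq_mul]
        rw [sum_coord hK he hfK]
        split_ifs with hu
        · rfl
        · simp [hf, hu]) y
    have h2 : (∑ s ∈ A, f s • coord (Kn n) s) y = N / (n + 1) := by
      rw [ContinuousLinearMap.sum_apply]
      simp only [smul_apply, smul_eq_mul]
      have : ∑ s ∈ A, f s * coord (Kn n) s y = ∑ s ∈ A, c s ^ 2 / ((n + 1) * N) :=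
        sum_congr rfl fun s hs => by simp only [hf, if_pos hs, hc]; ring
      rw [this, ← sum_div, ← hN2]; field_simp
    have h3 := ev_le f hfK y
    rw [h1, h2, div_le_iff₀ (by positivity), ← Submodule.coe_norm] at h3
    rw [← hN2]
    exact pow_le_pow_left₀ hNp.le (by linarith) 2
  let R : Sp e →L[ℝ] lp (fun _ : List ℕ => ℝ) 2 := LinearMap.mkContinuous
    { toFun := fun y => ⟨fun s => coord (Kn n) s y, memℓp_two (hbound y)⟩
      map_add' := fun y z => by ext s; simp
      map_smul' := fun a y => by ext s; simp } (n + 1)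
    fun y => norm_le_two (by positivity) (hbound y)
  have hR : ∀ y s, R y s = coord (Kn n) s y := fun _ _ => rfl
  refine refl_of_embed R fun y => ?_
  rw [Submodule.coe_norm]
  refine norm_le_of_ev (norm_nonneg _) fun f hf => ?_
  have hf2 : ∀ A : Finset (List ℕ), ∑ s ∈ A, ‖f s‖ ^ 2 ≤ 1 ^ 2 := fun A => by
    simpa using hf.1.2 A
  set F : lp (fun _ : List ℕ => ℝ) 2 := ⟨f, memℓp_two hf2⟩ with hF
  have hF1 : ‖F‖ ≤ 1 := norm_le_two zero_le_one hf2
  have h1 : (ev f hf).comp (Sp e).subtypeL = (innerSL ℝ F).comp R := by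
    refine ContinuousLinearMap.ext_on dense_eS ?_
    rintro _ ⟨u, rfl⟩
    have h2 : ((ev f hf).comp (Sp e).subtypeL) (eS e u) = f u := he _ _ _
    have h3 := sum_coord hK he hf {u} u
    rw [sum_singleton, if_pos (mem_singleton_self _)] at h3
    rw [h2, ContinuousLinearMap.comp_apply, innerSL_apply_apply, lp.inner_eq_tsum, tsum_eq_single u]
    · rw [hR, ← h3]
      simp [hF, eS, mul_comm]
    · intro s hs
      have h4 := sum_coord hK he hf {s} u
      rw [sum_singleton, if_neg (by simpa using hs.symm)] at h4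
      rw [hR, ← h4]
      simp [hF, eS, mul_comm]
  have h2 : ev f hf y = inner ℝ F (R y) := congrArg (fun L => L y) h1
  rw [h2]
  have := abs_real_inner_le_norm F (R y)
  nlinarith [norm_nonneg (R y)]

section sum

variable {Y : ℕ → Type*} [∀ n, NormedAddCommGroup (Y n)] [∀ n, NormedSpace ℝ (Y n)]

theorem refl_lp (h : ∀ n, Refl (Y n)) : Refl (lp Y 2) := by
  intro ξ
  let p : ∀ n, lp Y 2 →L[ℝ] Y n := fun n => lp.evalCLM ℝ Y 2 n
  let i : ∀ n, Y n →L[ℝ] lp Y 2 := fun n => lp.singleContinuousLinearMap ℝ Y 2 n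
  have hp : ∀ n y, p n y = y n := fun _ _ => rfl
  choose x hx using fun n => h n (ξ.comp ((ContinuousLinearMap.compL ℝ (lp Y 2) (Y n) ℝ).flip (p n)))
  have hx' : ∀ n (ψ : Y n →L[ℝ] ℝ), ξ (ψ.comp (p n)) = ψ (x n) := fun n ψ => hx n ψ
  have hcs : ∀ (A : Finset ℕ) (a : ℕ → ℝ) (y : lp Y 2),
      (∑ n ∈ A, a n * ‖y n‖) ^ 2 ≤ (∑ n ∈ A, a n ^ 2) * ‖y‖ ^ 2 := fun A a y =>
    (sum_mul_sq_le_sq_mul_sq A a fun n => ‖y n‖).trans
      (mul_le_mul_of_nonneg_left (sum_sq_le y A) (sum_nonneg fun _ _ => sq_nonneg _))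
  have hxb : ∀ A : Finset ℕ, ∑ n ∈ A, ‖x n‖ ^ 2 ≤ ‖ξ‖ ^ 2 := by
    intro A
    choose ψ hψ1 hψ2 using fun n => exists_dual_vector'' ℝ (x n)
    set N := Real.sqrt (∑ n ∈ A, ‖x n‖ ^ 2) with hN
    have hN2 : N ^ 2 = ∑ n ∈ A, ‖x n‖ ^ 2 := Real.sq_sqrt (sum_nonneg fun _ _ => sq_nonneg _)
    have hN0 : 0 ≤ N := Real.sqrt_nonneg _
    have h1 : ‖∑ n ∈ A, ‖x n‖ • (ψ n).comp (p n)‖ ≤ N := by
      refine ContinuousLinearMap.opNorm_le_bound _ hN0 fun y => ?_
      rw [ContinuousLinearMap.sum_apply]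
      refine (norm_sum_le _ _).trans ?_
      have h2 : ∑ n ∈ A, ‖(‖x n‖ • (ψ n).comp (p n)) y‖ ≤ ∑ n ∈ A, ‖x n‖ * ‖y n‖ :=
        sum_le_sum fun n _ => by
          rw [smul_apply, norm_smul, norm_norm, ContinuousLinearMap.comp_apply, hp]
          refine mul_le_mul_of_nonneg_left (((ψ n).le_opNorm _).trans ?_) (norm_nonneg _)
          nlinarith [hψ1 n, norm_nonneg (y n)]
      refine h2.trans (le_of_sq_le_sq' ?_ (by positivity))
      rw [mul_pow, hN2]
      exact hcs A (fun n => ‖x n‖) y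
    have h2 : ξ (∑ n ∈ A, ‖x n‖ • (ψ n).comp (p n)) = N ^ 2 := by
      rw [map_sum, hN2]
      refine sum_congr rfl fun n _ => ?_
      rw [map_smul, hx', hψ2, smul_eq_mul, sq]; rfl
    have h3 := ξ.le_opNorm (∑ n ∈ A, ‖x n‖ • (ψ n).comp (p n))
    rw [h2, Real.norm_eq_abs, abs_of_nonneg (sq_nonneg _)] at h3
    have h4 : N ^ 2 ≤ ‖ξ‖ * N := h3.trans (mul_le_mul_of_nonneg_left h1 (norm_nonneg _))
    rw [← hN2]
    nlinarith [norm_nonneg ξ, sq_nonneg (N - ‖ξ‖)]
  let X : lp Y 2 := ⟨x, memℓp_two hxb⟩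
  refine ⟨X, fun φ => ?_⟩
  set a : ℕ → ℝ := fun n => ‖φ.comp (i n)‖ with ha
  have hab : ∀ A : Finset ℕ, ∑ n ∈ A, a n ^ 2 ≤ 4 * ‖φ‖ ^ 2 := by
    intro A
    have hu : ∀ n, ∃ u : Y n, ‖u‖ ≤ 1 ∧ a n ≤ 2 * |φ (i n u)| := by
      intro n
      rcases (norm_nonneg (φ.comp (i n))).eq_or_lt with h0 | h0
      · exact ⟨0, by simp, by simp [ha, ← h0]⟩
      · obtain ⟨u, hu1, hu2⟩ := ContinuousLinearMap.exists_lt_apply_of_lt_opNorm (φ.comp (i n))
          (r := a n / 2) (by simp only [ha]; linarith)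
        refine ⟨u, hu1.le, ?_⟩
        rw [Real.norm_eq_abs, ContinuousLinearMap.comp_apply] at hu2
        linarith
    choose u hu1 hu2 using hu
    set b : ℕ → ℝ := fun n => φ (i n (u n)) with hb
    have h1 : φ (∑ n ∈ A, lp.single 2 n (b n • u n)) = ∑ n ∈ A, b n ^ 2 := by
      rw [map_sum]
      refine sum_congr rfl fun n _ => ?_
      have : φ (lp.single 2 n (b n • u n)) = φ (i n (b n • u n)) := rfl
      rw [this, map_smul, map_smul, smul_eq_mul, sq]
    have h2 : ‖∑ n ∈ A, lp.single (E := Y) 2 n (b n • u n)‖ ^ 2 ≤ ∑ n ∈ A, b n ^ 2 := by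
      have := lp.norm_sum_single (E := Y) (p := 2) (by norm_num) (fun n => b n • u n) A
      simp only [ENNReal.toReal_ofNat, Real.rpow_ofNat] at this
      rw [this]
      refine sum_le_sum fun n _ => ?_
      rw [norm_smul, mul_pow, Real.norm_eq_abs, sq_abs]
      have : ‖u n‖ ^ 2 ≤ 1 := by nlinarith [hu1 n, norm_nonneg (u n)]
      nlinarith [sq_nonneg (b n)]
    have h3 := φ.le_opNorm (∑ n ∈ A, lp.single 2 n (b n • u n))
    have h0 : 0 ≤ ∑ n ∈ A, b n ^ 2 := sum_nonneg fun _ _ => sq_nonneg _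
    rw [h1, Real.norm_eq_abs, abs_of_nonneg h0] at h3
    have h4 : ∑ n ∈ A, b n ^ 2 ≤ ‖φ‖ ^ 2 := by
      have h5 := pow_le_pow_left₀ h0 h3 2
      rw [mul_pow] at h5
      have h6 := mul_le_mul_of_nonneg_left h2 (sq_nonneg ‖φ‖)
      rcases h0.eq_or_lt with h7 | h7
      · rw [← h7]; positivity
      · nlinarith
    have h5 : ∑ n ∈ A, a n ^ 2 ≤ ∑ n ∈ A, 4 * b n ^ 2 := sum_le_sum fun n _ => by
      have := pow_le_pow_left₀ (norm_nonneg _) (hu2 n) 2
      rw [mul_pow, sq_abs] at this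
      simp only [hb]; linarith
    rw [← mul_sum] at h5
    linarith
  have hsum : Summable fun n => a n ^ 2 := summable_of_sum_le (fun _ => sq_nonneg _) hab
  set Φ : Finset ℕ → (lp Y 2 →L[ℝ] ℝ) := fun A => ∑ n ∈ A, (φ.comp (i n)).comp (p n) with hΦ
  have hΦ1 : ∀ A y, Φ A y = ∑ n ∈ A, φ (lp.single 2 n (y n)) := fun A y => by
    simp only [hΦ]; rw [ContinuousLinearMap.sum_apply]; rfl
  have hconv : Tendsto Φ atTop (𝓝 φ) := by
    rw [Metric.tendsto_nhds]
    intro ε hε
    have h1 := (tendsto_order.1 hsum.hasSum).1 (∑' n, a n ^ 2 - (ε / 2) ^ 2)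
      (by have : 0 < (ε / 2) ^ 2 := by positivity
          linarith)
    filter_upwards [h1] with A hA
    rw [dist_comm, dist_eq_norm]
    refine lt_of_le_of_lt (ContinuousLinearMap.opNorm_le_bound _ (by positivity : 0 ≤ ε / 2)
      fun y => ?_) (by linarith)
    have h2 : Tendsto (fun B : Finset ℕ => ‖∑ n ∈ B, φ (lp.single 2 n (y n)) - Φ A y‖) atTop
        (𝓝 ‖(φ - Φ A) y‖) := by
      have := (lp.hasSum_single (p := 2) (by norm_num) y).mapL φ
      exact (Tendsto.sub_const this _).norm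
    refine le_of_tendsto h2 ?_
    filter_upwards [eventually_ge_atTop A] with B hB
    rw [hΦ1, ← sum_sdiff_eq_sub hB]
    refine (norm_sum_le _ _).trans ?_
    have h3 : ∑ n ∈ B \ A, ‖φ (lp.single 2 n (y n))‖ ≤ ∑ n ∈ B \ A, a n * ‖y n‖ :=
      sum_le_sum fun n _ => (φ.comp (i n)).le_opNorm (y n)
    refine h3.trans (le_of_sq_le_sq' ((hcs _ a y).trans ?_) (by positivity))
    rw [mul_pow]
    refine mul_le_mul_of_nonneg_right ?_ (sq_nonneg _)
    rw [sum_sdiff_eq_sub hB]
    have := hsum.sum_le_tsum B fun _ _ => sq_nonneg _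
    linarith
  have h1 : Tendsto (fun A => ξ (Φ A)) atTop (𝓝 (ξ φ)) := (ξ.continuous.tendsto φ).comp hconv
  have h2 : Tendsto (fun A => ξ (Φ A)) atTop (𝓝 (φ X)) := by
    have := (lp.hasSum_single (p := 2) (by norm_num) X).mapL φ
    refine Tendsto.congr (fun A => ?_) this
    simp only [hΦ, map_sum, hx']
    rfl
  exact tendsto_nhds_unique h1 h2

theorem fourPt_lp (h : ∀ n, FourPt (Y n)) : FourPt (lp Y 2) := by
  intro x η hη
  obtain ⟨A, hA⟩ := ((tendsto_order.1 (hasSum_sq x)).1 (‖x‖ ^ 2 - η / 8) (by linarith)).exists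
  set δ := η / (2 * (A.card + 1)) with hδ
  have hδ0 : 0 < δ := by positivity
  choose S hS hS2 using fun n => h n (x n) δ hδ0
  choose m φ v hφ using fun n => (hS n).repr
  obtain ⟨T, hT, hT2⟩ := cof_fin (ι := Σ n : A, Fin (m n))
    fun j => (φ j.1 j.2).comp (lp.evalCLM ℝ Y 2 j.1)
  refine ⟨T, hT, fun z z' hz => ?_⟩
  have hmem : ∀ n ∈ A, z n - z' n ∈ S n := by
    intro n hn
    have h1 := hφ n (z n - z' n)
    have h2 : ∀ j, φ n j (z n - z' n) = 0 := fun j => (hT2 _).1 hz ⟨⟨n, hn⟩, j⟩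
    simpa [h2] using h1
  have s1 : HasSum (fun n => if n ∈ A then 4 * ‖x n‖ ^ 2 - δ else 0)
      (∑ n ∈ A, (4 * ‖x n‖ ^ 2 - δ)) := by
    have := hasSum_sum_of_ne_finset_zero (s := A)
      (f := fun n => if n ∈ A then 4 * ‖x n‖ ^ 2 - δ else 0) (L := SummationFilter.unconditional ℕ)
      fun n hn => if_neg hn
    rwa [sum_congr rfl fun n hn => if_pos hn] at this
  have s2 := s1.add ((hasSum_sq (z - z')).div_const 4)
  have s3 := (((hasSum_sq (x + z)).add (hasSum_sq (x - z))).add (hasSum_sq (x + z'))).add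
    (hasSum_sq (x - z'))
  have h1 := hasSum_le (fun n => ?_) s2 s3
  · rw [sum_sub_distrib, ← mul_sum, sum_const, nsmul_eq_mul] at h1
    have h2 : A.card * δ ≤ η / 2 := by
      rw [hδ, ← mul_div_assoc, div_le_div_iff₀ (by positivity) (by positivity)]
      nlinarith
    linarith
  · simp only [lp.coeFn_add, lp.coeFn_sub, Pi.add_apply, Pi.sub_apply]
    split_ifs with hn
    · have := hS2 n (z n) (z' n) (hmem n hn)
      linarith
    · have := four_triv_sq (x n) (z n) (z' n)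
      nlinarith [sq_nonneg ‖z n - z' n‖]

theorem separable_lp [∀ n, TopologicalSpace.SeparableSpace (Y n)] :
    TopologicalSpace.SeparableSpace (lp Y 2) := by
  rw [← TopologicalSpace.isSeparable_univ_iff]
  have h1 : TopologicalSpace.IsSeparable
      (⋃ n, Set.range (lp.singleContinuousLinearMap ℝ Y 2 n)) :=
    TopologicalSpace.IsSeparable.iUnion fun n =>
      TopologicalSpace.isSeparable_range (lp.singleContinuousLinearMap ℝ Y 2 n).continuous
  refine (h1.span (R := ℝ)).closure.mono fun y _ => ?_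
  refine mem_closure_of_tendsto (lp.hasSum_single (p := 2) (by norm_num) y)
    (Eventually.of_forall fun A => ?_)
  exact Submodule.sum_mem _ fun n _ =>
    Submodule.subset_span (Set.mem_iUnion.2 ⟨n, y n, rfl⟩)

/-- the isometric inclusion of a summand -/
noncomputable def singleLi (n : ℕ) : Y n →ₗᵢ[ℝ] lp Y 2 where
  toLinearMap := lp.lsingle 2 n
  norm_map' x := lp.norm_single (by norm_num) n x

end sum

end Crest.Agent.R125
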