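import Mathlib
import Crest.Prelude.Def_Diamond
import Crest.Agent.R125.Reflexive
import Crest.Agent.R125.Daugavet

set_option autoImplicit false

namespace Crest.Agent.R125

open Finset Filter Topology Crest.AnalysisR

lemma src_ne_tgt : ∀ (k : ℕ) (e : DiamondEdge k), diamondSrc k e ≠ diamondTgt k e
  | 0, _ => by simp [diamondSrc, diamondTgt]
  | k + 1, (e, i, b) => by cases b <;> simp [diamondSrc, diamondTgt]

lemma adj_edge (k : ℕ) (e : DiamondEdge k) :
    (diamondGraph k).Adj (diamondSrc k e) (diamondTgt k e) := by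
  rw [diamondGraph, SimpleGraph.fromRel_adj]
  exact ⟨src_ne_tgt k e, Or.inl ⟨e, rfl, rfl⟩⟩

lemma adj_cases {k : ℕ} {u v : DiamondVertex k} (h : (diamondGraph k).Adj u v) :
    ∃ e, (diamondSrc k e = u ∧ diamondTgt k e = v) ∨ (diamondSrc k e = v ∧ diamondTgt k e = u) := by
  rw [diamondGraph, SimpleGraph.fromRel_adj] at h
  rcases h.2 with ⟨e, he⟩ | ⟨e, he⟩
  · exact ⟨e, Or.inl he⟩
  · exact ⟨e, Or.inr he⟩

lemma adj_src (k : ℕ) (e : DiamondEdge k) (i : ℕ) :
    (diamondGraph (k + 1)).Adj (Sum.inl (diamondSrc k e)) (Sum.inr (e, i)) :=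
  adj_edge (k + 1) (e, i, false)

lemma adj_tgt (k : ℕ) (e : DiamondEdge k) (i : ℕ) :
    (diamondGraph (k + 1)).Adj (Sum.inr (e, i)) (Sum.inl (diamondTgt k e)) :=
  adj_edge (k + 1) (e, i, true)

lemma preconnected : ∀ k, (diamondGraph k).Preconnected
  | 0 => by
    have h := adj_edge 0 ()
    intro u v
    cases u <;> cases v
    · rfl
    · exact h.reachable
    · exact h.symm.reachable
    · rfl
  | k + 1 => by
    have h1 : ∀ u v : DiamondVertex k, (diamondGraph (k + 1)).Reachable (Sum.inl u) (Sum.inl v) := by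
      intro u v
      obtain ⟨p⟩ := preconnected k u v
      induction p with
      | nil => rfl
      | cons h _ ih =>
        refine SimpleGraph.Reachable.trans ?_ ih
        obtain ⟨e, ⟨rfl, rfl⟩ | ⟨rfl, rfl⟩⟩ := adj_cases h
        · exact (adj_src k e 0).reachable.trans (adj_tgt k e 0).reachable
        · exact ((adj_src k e 0).reachable.trans (adj_tgt k e 0).reachable).symm
    have h2 : ∀ u : DiamondVertex (k + 1), ∃ w : DiamondVertex k,
        (diamondGraph (k + 1)).Reachable u (Sum.inl w) := by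
      rintro (u | ⟨e, i⟩)
      · exact ⟨u, by rfl⟩
      · exact ⟨_, (adj_tgt k e i).reachable⟩
    intro u v
    obtain ⟨w, hw⟩ := h2 u
    obtain ⟨w', hw'⟩ := h2 v
    exact hw.trans ((h1 w w').trans hw'.symm)

lemma connected (k : ℕ) (u : DiamondVertex k) : (diamondGraph k).Connected :=
  haveI : Nonempty (DiamondVertex k) := ⟨u⟩
  ⟨preconnected k⟩

lemma lip_le_dist {V : Type*} {G : SimpleGraph V} (φ : V → ℤ)
    (h : ∀ a b, G.Adj a b → φ b - φ a ≤ 1) {u v : V} (huv : G.Reachable u v) :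
    φ v - φ u ≤ G.dist u v := by
  obtain ⟨p, hp⟩ := huv.exists_walk_length_eq_dist
  rw [← hp]
  clear hp huv
  induction p with
  | nil => simp
  | cons hadj p ih =>
    have := h _ _ hadj
    simp only [SimpleGraph.Walk.length_cons]
    push_cast
    linarith

lemma dist_inl (k : ℕ) (u v : DiamondVertex k) :
    2 * diamondDist k u v ≤ diamondDist (k + 1) (Sum.inl u) (Sum.inl v) := by
  have hc := connected k u
  have he : ∀ e : DiamondEdge k,
      ((diamondGraph k).dist u (diamondTgt k e) : ℤ) ≤ (diamondGraph k).dist u (diamondSrc k e) + 1 ∧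
      ((diamondGraph k).dist u (diamondSrc k e) : ℤ) ≤
        (diamondGraph k).dist u (diamondTgt k e) + 1 := by
    intro e
    have h1 := hc.dist_triangle (u := u) (v := diamondSrc k e) (w := diamondTgt k e)
    have h2 := hc.dist_triangle (u := u) (v := diamondTgt k e) (w := diamondSrc k e)
    rw [SimpleGraph.dist_eq_one_iff_adj.2 (adj_edge k e)] at h1
    rw [SimpleGraph.dist_eq_one_iff_adj.2 (adj_edge k e).symm] at h2
    constructor <;> exact_mod_cast ‹_›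
  let φ : DiamondVertex (k + 1) → ℤ := fun w => match w with
    | Sum.inl w => 2 * (diamondGraph k).dist u w
    | Sum.inr (e, _) => (diamondGraph k).dist u (diamondSrc k e) +
        (diamondGraph k).dist u (diamondTgt k e)
  have h := lip_le_dist (G := diamondGraph (k + 1)) φ (fun a b hab => by
    obtain ⟨⟨e, i, c⟩, ⟨rfl, rfl⟩ | ⟨rfl, rfl⟩⟩ := adj_cases hab <;> cases c <;>
      simp only [φ, diamondSrc, diamondTgt, cond_true, cond_false] <;>
      linarith [(he e).1, (he e).2]) (preconnected (k + 1) (Sum.inl u) (Sum.inl v))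
  simp only [φ, SimpleGraph.dist_self, Nat.cast_zero, mul_zero, sub_zero] at h
  unfold diamondDist
  exact_mod_cast h

lemma dist_inr (k : ℕ) (e : DiamondEdge k) {i j : ℕ} (hij : i ≠ j) :
    2 ≤ diamondDist (k + 1) (Sum.inr (e, i)) (Sum.inr (e, j)) := by
  have hc := connected (k + 1) (Sum.inr (e, i))
  have h0 : (diamondGraph (k + 1)).dist (Sum.inr (e, i)) (Sum.inr (e, j)) ≠ 0 := by
    rw [Ne, hc.dist_eq_zero_iff]
    intro h
    exact hij (by simpa using Sum.inr.inj h)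
  have h1 : (diamondGraph (k + 1)).dist (Sum.inr (e, i)) (Sum.inr (e, j)) ≠ 1 := by
    rw [Ne, SimpleGraph.dist_eq_one_iff_adj]
    intro h
    obtain ⟨⟨e', l, c⟩, ⟨h1, h2⟩ | ⟨h1, h2⟩⟩ := adj_cases h <;> cases c <;>
      simp [diamondSrc, diamondTgt] at h1 h2
  unfold diamondDist
  omega

variable {X : Type*} [NormedAddCommGroup X] [NormedSpace ℝ X]

lemma close_pair (z : ℕ → X) (M : ℝ) (hz : ∀ i, ‖z i‖ ≤ M) {S : Submodule ℝ X} (hS : Cof S)
    (ε : ℝ) (hε : 0 < ε) : ∃ i j, i ≠ j ∧ ∃ y ∈ S, ‖z i - z j - y‖ < ε := by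
  obtain ⟨m, φ, hφ⟩ := hS.close
  obtain ⟨δ, hδ, h1⟩ := hφ ε hε
  set Φ := ContinuousLinearMap.pi φ with hΦ
  have hb : ∀ i, Φ (z i) ∈ Metric.closedBall (0 : Fin m → ℝ) (‖Φ‖ * M) := fun i => by
    rw [mem_closedBall_zero_iff]
    exact (Φ.le_opNorm _).trans (mul_le_mul_of_nonneg_left (hz i) (norm_nonneg _))
  obtain ⟨a, -, ψ, hψ, hlim⟩ := (isCompact_closedBall _ _).tendsto_subseq hb
  obtain ⟨N, hN⟩ := Metric.cauchySeq_iff'.1 hlim.cauchySeq δ hδ
  refine ⟨ψ (N + 1), ψ N, (hψ (Nat.lt_succ_self N)).ne', h1 _ fun j => ?_⟩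
  have h2 := hN (N + 1) (Nat.le_succ N)
  rw [dist_eq_norm] at h2
  have h3 := norm_le_pi_norm ((Φ ∘ z ∘ ψ) (N + 1) - (Φ ∘ z ∘ ψ) N) j
  rw [map_sub]
  exact h3.trans h2.le

lemma midpoint_gain (hX : FourPt X) (x : X) (z : ℕ → X) (s ρ : ℝ) (hs : 0 < s)
    (h1 : ∀ i, ‖x + z i‖ ≤ ρ) (h2 : ∀ i, ‖x - z i‖ ≤ ρ)
    (h3 : ∀ i j, i ≠ j → 2 * s ≤ ‖z i - z j‖) : 4 * ‖x‖ ^ 2 + s ^ 2 ≤ 4 * ρ ^ 2 := by
  have hρ : 0 ≤ ρ := (norm_nonneg _).trans (h1 0)
  refine le_of_forall_pos_le_add fun η hη => ?_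
  set ε := min 1 (min s (η / (s + 4 * ρ + 3))) with hε
  have hε0 : 0 < ε := by positivity
  have hε1 : ε ≤ 1 := min_le_left _ _
  have hε2 : ε ≤ s := (min_le_right _ _).trans (min_le_left _ _)
  have hε3 : ε * (s + 4 * ρ + 3) ≤ η := by
    rw [← le_div_iff₀ (by positivity)]
    exact (min_le_right _ _).trans (min_le_right _ _)
  obtain ⟨S, hS, hS2⟩ := hX x ε hε0
  obtain ⟨i, j, hij, y, hy, hyy⟩ := close_pair z (ρ + ‖x‖) (fun i => by
    have := norm_sub_le (x + z i) x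
    rw [add_sub_cancel_left] at this
    linarith [h1 i]) hS ε hε0
  have h4 := hS2 (z i) (z i - y) (by simpa using hy)
  rw [sub_sub_cancel] at h4
  have h5 : 2 * s - ε ≤ ‖y‖ := by
    have := norm_add_le (z i - z j - y) y
    rw [sub_add_cancel] at this
    linarith [h3 i j hij]
  have h6 : ‖x + (z i - y)‖ ≤ ρ + ε := by
    have := norm_add_le (x + z j) (z i - z j - y)
    rw [show x + z j + (z i - z j - y) = x + (z i - y) by abel] at this
    linarith [h1 j]
  have h7 : ‖x - (z i - y)‖ ≤ ρ + ε := by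
    have := norm_sub_le (x - z j) (z i - z j - y)
    rw [show x - z j - (z i - z j - y) = x - (z i - y) by abel] at this
    linarith [h2 j]
  have k1 := pow_le_pow_left₀ (norm_nonneg _) (h1 i) 2
  have k2 := pow_le_pow_left₀ (norm_nonneg _) (h2 i) 2
  have k3 := pow_le_pow_left₀ (norm_nonneg _) h6 2
  have k4 := pow_le_pow_left₀ (norm_nonneg _) h7 2
  have k5 := pow_le_pow_left₀ (by linarith) h5 2
  nlinarith [sq_nonneg ε]

theorem diamond_bound (hX : FourPt X) : ∀ (k : ℕ) (f : DiamondVertex k → X) (s ρ : ℝ), 0 < s →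
    (∀ u v, s * (diamondDist k u v : ℝ) ≤ ‖f u - f v‖) →
    (∀ e, ‖f (diamondSrc k e) - f (diamondTgt k e)‖ ≤ ρ) → s ^ 2 * (1 + (k : ℝ) / 4) ≤ ρ ^ 2
  | 0, f, s, ρ, hs, h1, h2 => by
    have h3 := h1 (diamondSrc 0 ()) (diamondTgt 0 ())
    rw [diamondDist, SimpleGraph.dist_eq_one_iff_adj.2 (adj_edge 0 ())] at h3
    have h4 := h2 ()
    have h5 : s ≤ ρ := by simpa using h3.trans h4
    have := pow_le_pow_left₀ hs.le h5 2
    simpa using this
  | k + 1, f, s, ρ, hs, h1, h2 => by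
    have key : ∀ e : DiamondEdge k,
        ‖f (Sum.inl (diamondSrc k e)) - f (Sum.inl (diamondTgt k e))‖ ^ 2 + s ^ 2 ≤ 4 * ρ ^ 2 := by
      intro e
      set a := f (Sum.inl (diamondSrc k e)) with ha
      set b := f (Sum.inl (diamondTgt k e)) with hb
      have := midpoint_gain hX ((1 / 2 : ℝ) • (b - a))
        (fun i => f (Sum.inr (e, i)) - (1 / 2 : ℝ) • (a + b)) s ρ hs (fun i => ?_) (fun i => ?_)
        (fun i j hij => ?_)
      · rw [norm_smul, norm_sub_rev] at this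
        norm_num at this
        linarith
      · have h3 : ‖a - f (Sum.inr (e, i))‖ ≤ ρ := h2 (e, i, false)
        rw [norm_sub_rev] at h3
        rwa [show (1 / 2 : ℝ) • (b - a) + (f (Sum.inr (e, i)) - (1 / 2 : ℝ) • (a + b)) =
          f (Sum.inr (e, i)) - a by module]
      · have h3 : ‖f (Sum.inr (e, i)) - b‖ ≤ ρ := h2 (e, i, true)
        rw [norm_sub_rev] at h3
        rwa [show (1 / 2 : ℝ) • (b - a) - (f (Sum.inr (e, i)) - (1 / 2 : ℝ) • (a + b)) =
          b - f (Sum.inr (e, i)) by module]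
      · have h3 := h1 (Sum.inr (e, i)) (Sum.inr (e, j))
        have h4 : (2 : ℝ) ≤ diamondDist (k + 1) (Sum.inr (e, i)) (Sum.inr (e, j)) := by
          exact_mod_cast dist_inr k e hij
        rw [sub_sub_sub_cancel_right]
        nlinarith
    have hne : Nonempty (DiamondEdge k) := by
      clear key h1 h2 f
      induction k with
      | zero => exact ⟨()⟩
      | succ k ih => exact ⟨(ih.some, 0, false)⟩
    have h0 : 0 ≤ 4 * ρ ^ 2 - s ^ 2 := by
      have := key hne.some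
      nlinarith [sq_nonneg ‖f (Sum.inl (diamondSrc k hne.some)) -
        f (Sum.inl (diamondTgt k hne.some))‖]
    have h3 := diamond_bound hX k (fun u => f (Sum.inl u)) (2 * s) (Real.sqrt (4 * ρ ^ 2 - s ^ 2))
      (by positivity) (fun u v => by
        have h4 := h1 (Sum.inl u) (Sum.inl v)
        have h5 : 2 * (diamondDist k u v : ℝ) ≤ diamondDist (k + 1) (Sum.inl u) (Sum.inl v) := by
          exact_mod_cast dist_inl k u v
        nlinarith) (fun e => Real.le_sqrt_of_sq_le (by linarith [key e]))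
    rw [Real.sq_sqrt h0] at h3
    push_cast
    nlinarith

theorem distortion_bound (hX : FourPt X) (k : ℕ) (f : DiamondVertex k → X) (D : ℝ)
    (h : ∃ s : ℝ, 0 < s ∧ ∀ u v : DiamondVertex k, s * (diamondDist k u v : ℝ) ≤ ‖f u - f v‖ ∧
      ‖f u - f v‖ ≤ D * s * (diamondDist k u v : ℝ)) : 1 + (k : ℝ) / 4 ≤ D ^ 2 := by
  obtain ⟨s, hs, h⟩ := h
  have h1 := diamond_bound hX k f s (D * s) hs (fun u v => (h u v).1) fun e => by
    have := (h (diamondSrc k e) (diamondTgt k e)).2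
    rwa [diamondDist, SimpleGraph.dist_eq_one_iff_adj.2 (adj_edge k e), Nat.cast_one,
      mul_one] at this
  rw [mul_pow, mul_comm (D ^ 2)] at h1
  exact le_of_mul_le_mul_left h1 (by positivity)

lemma cof_inf {S : Submodule ℝ X} (hS : Cof S) (ψ : X →L[ℝ] ℝ) :
    ∃ T : Submodule ℝ X, Cof T ∧ ∀ y ∈ T, y ∈ S ∧ ψ y = 0 := by
  obtain ⟨m, φ, v, hφ⟩ := hS.repr
  obtain ⟨T, hT, hT2⟩ := cof_fin (ι := Option (Fin m)) fun j => j.elim ψ φ
  refine ⟨T, hT, fun y hy => ⟨?_, (hT2 y).1 hy none⟩⟩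
  have h2 : ∀ j, φ j y = 0 := fun j => (hT2 y).1 hy (some j)
  simpa [h2] using hφ y

theorem moduli (hX : FourPt X) {t : ℝ} (ht : 0 < t) (x : X) (hx : ‖x‖ = 1) (η : ℝ) (hη : 0 < η) :
    ∃ S : Submodule ℝ X, Cof S ∧ ∀ y ∈ S, ‖y‖ = 1 →
      (Real.sqrt (1 + t ^ 2 / 4) - 1) - η ≤ max ‖x + t • y‖ ‖x - t • y‖ - 1 ∧
      (Real.sqrt (1 + t ^ 2 / 4) - 1) / 2 - η ≤ (‖x + t • y‖ + ‖x - t • y‖) / 2 - 1 ∧
      (Real.sqrt (1 + t ^ 2 / 12) - 1) - η ≤ (‖x + t • y‖ + ‖x - t • y‖) / 2 - 1 := by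
  obtain ⟨S, hS, hS2⟩ := hX x (4 * η ^ 2) (by positivity)
  obtain ⟨ψ, hψ⟩ := exists_norming x
  obtain ⟨T, hT, hT2⟩ := cof_inf hS ψ
  refine ⟨T, hT, fun y hy hy1 => ?_⟩
  obtain ⟨hyS, hyψ⟩ := hT2 y hy
  have e1 : t • y - -(t • y) = (2 * t) • y := by rw [mul_smul, two_smul]; abel
  have h1 := hS2 (t • y) (-(t • y)) (by rw [e1]; exact S.smul_mem _ hyS)
  rw [e1, norm_smul, hy1, hx, Real.norm_eq_abs, abs_of_pos (by positivity), ← sub_eq_add_neg,
    sub_neg_eq_add] at h1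
  have h2 := hψ (t • y) (by rw [map_smul, hyψ, smul_zero])
  have h3 := hψ (-(t • y)) (by rw [map_neg, map_smul, hyψ, smul_zero, neg_zero])
  rw [← sub_eq_add_neg] at h3
  rw [hx] at h2 h3
  have h4 : 2 * t ≤ ‖x + t • y‖ + ‖x - t • y‖ := by
    have := norm_sub_le (x + t • y) (x - t • y)
    rwa [show x + t • y - (x - t • y) = (2 * t) • y by rw [mul_smul, two_smul]; abel,
      norm_smul, hy1, mul_one, Real.norm_eq_abs, abs_of_pos (by positivity)] at this
  set p := ‖x + t • y‖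
  set q := ‖x - t • y‖
  set r := Real.sqrt (1 + t ^ 2 / 4) with hr
  have hr2 : r ^ 2 = 1 + t ^ 2 / 4 := Real.sq_sqrt (by positivity)
  have hr0 : 0 ≤ r := Real.sqrt_nonneg _
  have hr1 : 1 ≤ r := le_of_sq_le_sq' (by nlinarith) hr0
  have hM1 : p ≤ max p q := le_max_left _ _
  have hM2 : q ≤ max p q := le_max_right _ _
  have h5 : r ≤ max p q + η := by
    refine le_of_sq_le_sq' ?_ (by linarith)
    have k1 := pow_le_pow_left₀ (by linarith) hM1 2
    have k2 := pow_le_pow_left₀ (by linarith) hM2 2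
    nlinarith
  have h6 : 1 + max p q ≤ p + q := by
    rcases le_total p q with h | h
    · rw [max_eq_right h]; linarith
    · rw [max_eq_left h]; linarith
  refine ⟨by linarith, by linarith, ?_⟩
  rcases le_total r 5 with h7 | h7
  · have : Real.sqrt (1 + t ^ 2 / 12) ≤ (1 + r) / 2 :=
      Real.sqrt_le_iff.2 ⟨by linarith, by nlinarith⟩
    linarith
  · have : Real.sqrt (1 + t ^ 2 / 12) ≤ t :=
      Real.sqrt_le_iff.2 ⟨ht.le, by nlinarith⟩
    linarith

/-- coordinate vectors for the finite height classes -/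
noncomputable def eKn (n : ℕ) (s : List ℕ) : Amb (Kn n) :=
  ⟨fun f => f.1 s, memℓp_infty ⟨1, by
    rintro _ ⟨f, rfl⟩
    have h := f.2.1.2 {s}
    rw [sum_singleton] at h
    simp only [Real.norm_eq_abs]
    exact abs_le_of_sq_le_sq' (by simpa using h) zero_le_one |> fun h' => abs_le.2 h'⟩⟩

lemma eKn_apply (n : ℕ) : ∀ s f (hf : Kn n f), ev f hf (eKn n s) = f s := fun _ _ _ => rfl

/-- the space -/
abbrev BigX : Type := lp (fun n : ℕ => Sp (eKn n)) 2

instance (n : ℕ) : CompleteSpace (Sp (eKn n)) :=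
  (Submodule.isClosed_topologicalClosure _).completeSpace_coe

lemma bigX_fourPt : FourPt BigX := fourPt_lp fun n => fourPt_sp (goodK_kn n) (eKn_apply n)

lemma bigX_refl : Refl BigX := refl_lp fun n => refl_kn n _ (eKn_apply n)

lemma bigX_sep : TopologicalSpace.SeparableSpace BigX :=
  haveI : ∀ n, TopologicalSpace.SeparableSpace (Sp (eKn n)) := fun _ => separable_sp
  separable_lp

lemma bigX_inf : ¬ FiniteDimensional ℝ BigX :=
  infinite_sp (goodK_kn 1) (eKn_apply 1) (fun k => kn_delta 1 [k] (by simp))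
    (singleLi (Y := fun n : ℕ => Sp (eKn n)) 1)

lemma bigX_tree (n : ℕ) :
    ∃ T : ℕ → Set BigX, (T 0).Nonempty ∧ (∀ i ≤ n, ∀ x ∈ T i, 1 ≤ ‖x‖ ∧ ‖x‖ ≤ 1) ∧
      ∀ i < n, ∀ x ∈ T i, ∀ S : Submodule ℝ BigX, Cof S → ∀ ε > 0,
        ∃ z ∈ T (i + 1), ∃ y ∈ S, ‖z - x - y‖ < ε ∧ 1 ≤ ‖z - x‖ :=
  tree_sp (goodK_kn (n + 1)) (eKn_apply (n + 1)) n (fun v _ hv => kn_delta _ v hv)
    (singleLi (Y := fun n : ℕ => Sp (eKn n)) (n + 1))

end Crest.Agent.R125
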