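import Mathlib
import Crest.Prelude.Def_DaugavetL1
import Crest.Agent.R125.Daugavet

set_option autoImplicit false

namespace Crest.Agent.R125

open Finset Filter Topology Crest.AnalysisR.L1Subspace MeasureTheory

variable {Ω : Type} [MeasurableSpace Ω] {P : Measure Ω}

lemma integrable_mul_bdd {σ : Ω → ℝ} (hσ : Measurable σ) (hb : ∀ z, |σ z| ≤ 1) {f : Ω → ℝ}
    (hf : Integrable f P) : Integrable (fun z => σ z * f z) P :=
  hf.bdd_mul (c := 1) hσ.aestronglyMeasurable (Eventually.of_forall fun z => by simpa using hb z)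

/-- integration against a bounded measurable function as a functional on `L¹` -/
lemma exists_functional {σ : Ω → ℝ} (hσ : Measurable σ) (hb : ∀ z, |σ z| ≤ 1) :
    ∃ φ : Lp ℝ 1 P →L[ℝ] ℝ, ∀ f, φ f = ∫ z, σ z * f z ∂P := by
  refine ⟨LinearMap.mkContinuous
    { toFun := fun f => ∫ z, σ z * f z ∂P
      map_add' := fun f g => ?_
      map_smul' := fun c f => ?_ } 1 fun f => ?_, fun f => rfl⟩
  · rw [← integral_add (integrable_mul_bdd hσ hb (L1.integrable_coeFn f))
      (integrable_mul_bdd hσ hb (L1.integrable_coeFn g))]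
    refine integral_congr_ae ?_
    filter_upwards [Lp.coeFn_add f g] with z hz
    rw [hz, Pi.add_apply, mul_add]
  · simp only [RingHom.id_apply, smul_eq_mul]
    rw [← integral_const_mul]
    refine integral_congr_ae ?_
    filter_upwards [Lp.coeFn_smul c f] with z hz
    rw [hz, Pi.smul_apply, smul_eq_mul]; ring
  · simp only [LinearMap.coe_mk, AddHom.coe_mk, one_mul]
    rw [L1.norm_eq_integral_norm]
    refine norm_integral_le_of_norm_le (L1.integrable_coeFn f).norm
      (Eventually.of_forall fun z => ?_)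
    rw [norm_mul, Real.norm_eq_abs]
    nlinarith [hb z, norm_nonneg (f z), abs_nonneg (σ z)]

lemma unif_int {f : Ω → ℝ} (hf : Integrable f P) {η : ℝ} (hη : 0 < η) :
    ∃ δ : ℝ, 0 < δ ∧ ∀ A : Set Ω, P A < ENNReal.ofReal δ → ∫ z in A, f z ∂P < η := by
  have h := hf.tendsto_setIntegral_nhds_zero (l := comap P (𝓝 0)) (s := fun A : Set Ω => A)
    tendsto_comap
  have h1 := h.eventually (gt_mem_nhds hη)
  rw [eventually_comap] at h1
  obtain ⟨ε, hε, h2⟩ := ENNReal.nhds_zero_basis_Iic.eventually_iff.1 h1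
  rcases eq_or_ne ε ⊤ with rfl | hne
  · exact ⟨1, one_pos, fun A _ => h2 (Set.mem_Iic.2 le_top) A rfl⟩
  · refine ⟨ε.toReal, ENNReal.toReal_pos hε.ne' hne, fun A hA => h2 ?_ A rfl⟩
    rw [ENNReal.ofReal_toReal hne] at hA
    exact hA.le

lemma midpoint_lower [IsProbabilityMeasure P] (E : Submodule ℝ (Lp ℝ 1 P))
    (htb : UnitBallTotallyBoundedInMeasure P E) (x : E) (hx : ‖x‖ = 1) (t : ℝ) (ht : 0 < t)
    (η : ℝ) (hη : 0 < η) :
    ∃ S : Submodule ℝ E, Cof S ∧ ∀ y ∈ S, ‖y‖ = 1 →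
      t / 2 - η ≤ (‖x + t • y‖ + ‖x - t • y‖) / 2 - 1 := by
  obtain ⟨δ, hδ, hδ2⟩ := unif_int (L1.integrable_coeFn (x : Lp ℝ 1 P)).norm (half_pos hη)
  obtain ⟨s, -, hs⟩ := htb (min δ (η / (2 * t))) (by positivity)
  have hσm : ∀ g : Lp ℝ 1 P, Measurable fun z => if 0 ≤ g z then (1 : ℝ) else -1 := fun g =>
    Measurable.ite (measurableSet_le measurable_const (Lp.stronglyMeasurable g).measurable)
      measurable_const measurable_const
  have hσb : ∀ (g : Lp ℝ 1 P) z, |if 0 ≤ g z then (1 : ℝ) else -1| ≤ 1 := fun g z => by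
    split_ifs <;> simp
  choose φ hφ using fun g : Lp ℝ 1 P => exists_functional (P := P) (hσm g) (hσb g)
  obtain ⟨S, hS, hS2⟩ := cof_finset s (fun g => (φ g).comp E.subtypeL)
  refine ⟨S, hS, fun y hy hy1 => ?_⟩
  obtain ⟨g, hg, hyg⟩ := hs y y.2 hy1.le
  have h0 : ∫ z, (if 0 ≤ g z then (1 : ℝ) else -1) * (y : Lp ℝ 1 P) z ∂P = 0 := by
    rw [← hφ]; exact (hS2 y).1 hy g hg
  obtain ⟨a, ⟨ha0, ha1⟩, ha2⟩ := exists_lt_of_csInf_lt (s := {a : ℝ | 0 < a ∧
      P {z | a < abs (((y : Lp ℝ 1 P) : Ω → ℝ) z - (g : Ω → ℝ) z)} < ENNReal.ofReal a})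
      ⟨2, by norm_num, prob_le_one.trans_lt (by norm_num)⟩ hyg
  set A := {z | a < abs (((y : Lp ℝ 1 P) : Ω → ℝ) z - (g : Ω → ℝ) z)} with hA
  have hAm : MeasurableSet A := measurableSet_lt measurable_const
    ((Lp.stronglyMeasurable _).measurable.sub (Lp.stronglyMeasurable _).measurable).abs
  have h1 := hδ2 A (ha1.trans_le (ENNReal.ofReal_le_ofReal (ha2.le.trans (min_le_left _ _))))
  have h2 : t * a ≤ η / 2 := by
    have := mul_le_mul_of_nonneg_left (ha2.le.trans (min_le_right _ _)) ht.le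
    rwa [show t * (η / (2 * t)) = η / 2 by field_simp] at this
  have ix := (L1.integrable_coeFn (x : Lp ℝ 1 P)).norm
  have iy := (L1.integrable_coeFn (y : Lp ℝ 1 P)).norm
  have ip := (L1.integrable_coeFn ((x + t • y : E) : Lp ℝ 1 P)).norm
  have im := (L1.integrable_coeFn ((x - t • y : E) : Lp ℝ 1 P)).norm
  have iσ := integrable_mul_bdd (hσm g) (hσb g) (L1.integrable_coeFn (y : Lp ℝ 1 P))
  have iA := ix.indicator hAm
  have nx : ∫ z, ‖(x : Lp ℝ 1 P) z‖ ∂P = 1 := by rw [← L1.norm_eq_integral_norm]; exact hx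
  have ny : ∫ z, ‖(y : Lp ℝ 1 P) z‖ ∂P = 1 := by rw [← L1.norm_eq_integral_norm]; exact hy1
  have np : ∫ z, ‖((x + t • y : E) : Lp ℝ 1 P) z‖ ∂P = ‖x + t • y‖ := by
    rw [← L1.norm_eq_integral_norm]; rfl
  have nm : ∫ z, ‖((x - t • y : E) : Lp ℝ 1 P) z‖ ∂P = ‖x - t • y‖ := by
    rw [← L1.norm_eq_integral_norm]; rfl
  have hpt : (fun z => 2 * ‖(x : Lp ℝ 1 P) z‖ - 2 * A.indicator (fun z => ‖(x : Lp ℝ 1 P) z‖) z +
      t * (‖(y : Lp ℝ 1 P) z‖ - (if 0 ≤ g z then (1 : ℝ) else -1) * (y : Lp ℝ 1 P) z - 2 * a))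
      ≤ᵐ[P] fun z => ‖((x + t • y : E) : Lp ℝ 1 P) z‖ + ‖((x - t • y : E) : Lp ℝ 1 P) z‖ := by
    filter_upwards [Lp.coeFn_add (x : Lp ℝ 1 P) (t • (y : Lp ℝ 1 P)),
      Lp.coeFn_sub (x : Lp ℝ 1 P) (t • (y : Lp ℝ 1 P)), Lp.coeFn_smul t (y : Lp ℝ 1 P)]
      with z h3 h4 h5
    simp only [Submodule.coe_add, Submodule.coe_sub, Submodule.coe_smul, h3, h4, h5, Pi.add_apply,
      Pi.sub_apply, Pi.smul_apply, smul_eq_mul, Real.norm_eq_abs]
    set u := (x : Lp ℝ 1 P) z
    set v := (y : Lp ℝ 1 P) z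
    have e1 : 2 * |u| ≤ |u + t * v| + |u - t * v| := by
      have := abs_add_le (u + t * v) (u - t * v)
      rwa [show u + t * v + (u - t * v) = 2 * u by ring, abs_mul, abs_two] at this
    have e2 : 2 * (t * |v|) ≤ |u + t * v| + |u - t * v| := by
      have := abs_sub (u + t * v) (u - t * v)
      rwa [show u + t * v - (u - t * v) = 2 * (t * v) by ring, abs_mul, abs_two, abs_mul,
        abs_of_pos ht] at this
    by_cases hz : z ∈ A
    · rw [Set.indicator_of_mem hz]
      have e3 : |v| - (if 0 ≤ g z then (1 : ℝ) else -1) * v - 2 * a ≤ 2 * |v| := by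
        have := le_abs_self v
        have := neg_abs_le v
        split_ifs <;> linarith
      have := mul_le_mul_of_nonneg_left e3 ht.le
      linarith
    · rw [Set.indicator_of_notMem hz]
      have e4 : |v - g z| ≤ a := not_lt.1 hz
      have e3 : |v| - (if 0 ≤ g z then (1 : ℝ) else -1) * v - 2 * a ≤ 0 := by
        rw [abs_le] at e4
        have : |v| ≤ (if 0 ≤ g z then (1 : ℝ) else -1) * v + 2 * a := by
          rw [abs_le]
          split_ifs <;> constructor <;> linarith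
        linarith
      have := mul_le_mul_of_nonneg_left e3 ht.le
      linarith
  have hint := integral_mono_ae (((ix.const_mul 2).sub (iA.const_mul 2)).add
    (((iy.sub iσ).sub (integrable_const (2 * a))).const_mul t)) (ip.add im) hpt
  rw [integral_add' ip im, np, nm] at hint
  rw [integral_add' ((ix.const_mul 2).sub (iA.const_mul 2))
    (((iy.sub iσ).sub (integrable_const (2 * a))).const_mul t),
    integral_sub' (ix.const_mul 2) (iA.const_mul 2), integral_const_mul, integral_const_mul,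
    integral_const_mul, integral_sub' (iy.sub iσ) (integrable_const _), integral_sub' iy iσ,
    nx, ny, h0, integral_indicator hAm, integral_const] at hint
  simp only [probReal_univ, smul_eq_mul, one_mul] at hint
  nlinarith

end Crest.Agent.R125
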